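import Vale.Agent.P092.H793.Lat
import Vale.Agent.P092.H793.Irr
import Vale.Agent.P092.H35.Spg
import Vale.Agent.P092.H387.Nm1
import Vale.Agent.P092.H303.Form
import Vale.Agent.P092.SR.St

/-!
P092, TEAM P, [P-PSP] (helper684), part 1: quotients `G ⧸ Z` of closed subgroups `G` of `SL_n(k)` by
subgroups `Z` of scalar matrices, as sources and as targets; lattices.
-/

set_option linter.all false

open Matrix Filter Topology

namespace Vale.Agent.P092.H684.Psp

open Vale.Agent.P092.RC (Moore PG)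
open Vale.Agent.P092.H35 (sp mkP nmx)
open Vale.Agent.P092.H515.St (IsLattice)
open Vale.Agent.P092.SR.St (ICC)

section gen

variable {k : Type} [NontriviallyNormedField k] {n : ℕ} {G : Subgroup (SpecialLinearGroup (Fin n) k)}

/-- `Z` consists of scalar matrices -/
def Sc (Z : Subgroup G) : Prop := ∀ z ∈ Z, ∃ c : k, z.1.1 = c • (1 : Matrix (Fin n) (Fin n) k)

/-- `G → PGL_n(k)` -/
noncomputable def spG (G : Subgroup (SpecialLinearGroup (Fin n) k)) : G →* PG k n :=
  (sp k n).comp G.subtype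

theorem spG_apply (g : G) : spG G g = sp k n g.1 := rfl

theorem spG_cont : Continuous (spG G) := H35.sp_cont.comp continuous_subtype_val

theorem spG_one_iff {g : G} :
    spG G g = 1 ↔ ∃ c : k, g.1.1 = c • (1 : Matrix (Fin n) (Fin n) k) := H35.sp_one_iff

theorem spG_eq_iff {g h : G} : spG G g = spG G h ↔ ∃ c : k, h.1.1 = c • g.1.1 := H35.mkP_eq_iff

/-- elements of the kernel are central -/
theorem spG_central {g : G} (h : spG G g = 1) (x : G) : x * g = g * x :=
  Subtype.ext (H35.sp_central (g := g.1) h x.1)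

/-- the kernel is finite -/
theorem spG_ker_finite (hn : n ≠ 0) : {g : G | spG G g = 1}.Finite := by
  refine Set.Finite.of_finite_image ((H35.sp_ker_finite (k := k) hn).subset ?_)
    (Subtype.val_injective.injOn (s := {g : G | spG G g = 1}))
  rintro _ ⟨g, hg, rfl⟩
  exact hg

theorem sc_bot : Sc (⊥ : Subgroup G) := by
  intro z hz
  rw [Subgroup.mem_bot] at hz
  subst hz
  exact ⟨1, by rw [one_smul]; rfl⟩

variable {Z : Subgroup G}

theorem Sc.one (hZ : Sc Z) {z : G} (hz : z ∈ Z) : spG G z = 1 := spG_one_iff.2 (hZ z hz)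

theorem Sc.finite (hn : n ≠ 0) (hZ : Sc Z) : (Z : Set G).Finite :=
  (spG_ker_finite hn).subset fun _ hz => hZ.one hz

theorem Sc.central (hZ : Sc Z) : Z ≤ Subgroup.center G := fun z hz =>
  Subgroup.mem_center_iff.2 (spG_central (hZ.one hz))

theorem Sc.normal (hZ : Sc Z) : Z.Normal :=
  ⟨fun z hz g => by
    have h1 := spG_central (hZ.one hz) g
    rwa [h1, mul_inv_cancel_right]⟩

/-- `G ⧸ Z → PGL_n(k)` -/
noncomputable def spq (Z : Subgroup G) [Z.Normal] (hZ : Sc Z) : G ⧸ Z →* PG k n :=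
  QuotientGroup.lift Z (spG G) fun _ hz => MonoidHom.mem_ker.2 (hZ.one hz)

variable [Z.Normal]

theorem spq_mk (hZ : Sc Z) (g : G) : spq Z hZ (QuotientGroup.mk' Z g) = sp k n g.1 := rfl

theorem spq_cont (hZ : Sc Z) : Continuous (spq Z hZ) := spG_cont.quotient_lift _

/-- a representative of an element of `G ⧸ Z` -/
noncomputable def qO (Z : Subgroup G) (e : G ⧸ Z) : G := Quotient.out e

theorem mk_qO (e : G ⧸ Z) : QuotientGroup.mk' Z (qO Z e) = e := QuotientGroup.out_eq' e

theorem sp_qO (hZ : Sc Z) (e : G ⧸ Z) : sp k n (qO Z e).1 = spq Z hZ e := by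
  conv_rhs => rw [← mk_qO (Z := Z) e]
  rfl

/-- representatives of the elements of `Z`-classes differ by elements of `Z` -/
theorem qO_mk (g : G) : ∃ z ∈ Z, qO Z (QuotientGroup.mk' Z g) = g * z := by
  have h1 : QuotientGroup.mk' Z g = QuotientGroup.mk' Z (qO Z (QuotientGroup.mk' Z g)) :=
    (mk_qO _).symm
  have h2 : (g⁻¹ * qO Z (QuotientGroup.mk' Z g)) ∈ Z := QuotientGroup.eq.1 h1
  exact ⟨_, h2, by rw [mul_inv_cancel_left]⟩

/-- `γ ↦ qO (i γ)` is a homomorphism modulo `Z` -/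
theorem qO_mul {Γ : Type} [Group Γ] (i : Γ →* G ⧸ Z) (γ γ' : Γ) :
    ∃ z ∈ Z, qO Z (i (γ * γ')) = qO Z (i γ) * qO Z (i γ') * z := by
  have h1 : i (γ * γ') = QuotientGroup.mk' Z (qO Z (i γ) * qO Z (i γ')) := by
    rw [map_mul, map_mul, mk_qO, mk_qO]
  rw [h1]
  exact qO_mk _

/-- the letter `PH` -/
theorem ph_qO (hZ : Sc Z) {Γ : Type} [Group Γ] (i : Γ →* G ⧸ Z) (γ γ' : Γ) :
    ∃ c : k, (qO Z (i (γ * γ'))).1.1 = c • ((qO Z (i γ)).1 * (qO Z (i γ')).1).1 := by
  obtain ⟨z, hz, e⟩ := qO_mul i γ γ'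
  obtain ⟨c, hc⟩ := hZ z hz
  refine ⟨c, ?_⟩
  rw [e]
  show (qO Z (i γ)).1.1 * (qO Z (i γ')).1.1 * z.1.1 = _
  rw [hc, mul_smul_comm, mul_one]
  rfl

theorem t2_quo (hn : n ≠ 0) (hZ : Sc Z) : T2Space (G ⧸ Z) := by
  haveI : IsClosed (Z : Set G) := (hZ.finite hn).isClosed
  infer_instance

theorem lc_G [ProperSpace k] (hG : IsClosed (G : Set (SpecialLinearGroup (Fin n) k))) :
    LocallyCompactSpace G := by
  haveI : LocallyCompactSpace (SpecialLinearGroup (Fin n) k) := H303.locallyCompact_SL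
  exact hG.isClosedEmbedding_subtypeVal.locallyCompactSpace

theorem lc_quo [ProperSpace k] (hG : IsClosed (G : Set (SpecialLinearGroup (Fin n) k))) :
    LocallyCompactSpace (G ⧸ Z) := by
  haveI := lc_G hG
  infer_instance

theorem sc_G [ProperSpace k] : SecondCountableTopology G := by
  haveI : SecondCountableTopology (SpecialLinearGroup (Fin n) k) := H303.secondCountable_SL
  exact IsEmbedding.subtypeVal.secondCountableTopology

theorem sc_quo [ProperSpace k] : SecondCountableTopology (G ⧸ Z) := by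
  haveI : SecondCountableTopology G := sc_G
  infer_instance

/-- the quotient map is proper -/
theorem proper_quo (hn : n ≠ 0) (hZ : Sc Z) (C : Set (G ⧸ Z)) (hC : IsCompact C) :
    IsCompact (QuotientGroup.mk' Z ⁻¹' C) :=
  H793.proper_mk _ (hZ.finite hn).isCompact C hC

theorem noncompact_quo (hn : n ≠ 0) (hZ : Sc Z) (h : ¬ IsCompact (Set.univ : Set G)) :
    ¬ IsCompact (Set.univ : Set (G ⧸ Z)) := fun h1 =>
  h (by simpa using proper_quo hn hZ _ h1)

/-- bounded sets are compact -/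
theorem compact_bdd [ProperSpace k] (hG : IsClosed (G : Set (SpecialLinearGroup (Fin n) k)))
    (C : ℝ) : IsCompact {g : G | nmx g.1.1 ≤ C} := by
  have h1 := H35.isCompact_bdd (k := k) (n := n) C
  have h2 := hG.isClosedEmbedding_subtypeVal.isCompact_preimage h1
  exact h2

/-- finiteness in the letter of sizes -/
theorem fin_qO [ProperSpace k] (hn : n ≠ 0) (hZ : Sc Z)
    (hG : IsClosed (G : Set (SpecialLinearGroup (Fin n) k))) {Γ : Type} [Group Γ]
    (i : Γ →* G ⧸ Z) (hi : Function.Injective i) (hd : DiscreteTopology i.range) (C : ℝ) :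
    {γ : Γ | nmx (qO Z (i γ)).1.1 ≤ C}.Finite := by
  haveI := t2_quo hn hZ
  have h1 : IsCompact ((QuotientGroup.mk' Z : G → G ⧸ Z) '' {g : G | nmx g.1.1 ≤ C}) :=
    (compact_bdd hG C).image continuous_quotient_mk'
  have h2 := H790.finite_inter i.range h1
  refine Set.Finite.of_finite_image (f := fun γ : Γ => (⟨i γ, γ, rfl⟩ : i.range))
    (h2.subset ?_) fun γ _ γ' _ e => hi (congrArg Subtype.val e)
  rintro _ ⟨γ, hγ, rfl⟩
  exact ⟨qO Z (i γ), hγ, mk_qO _⟩

end gen

/-! ### The target letters for homomorphisms modulo scalars -/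

section tgt

variable {k : Type} [NontriviallyNormedField k] {n : ℕ} {G : Subgroup (SpecialLinearGroup (Fin n) k)}
  {Γ : Type} [Group Γ]

/-- scalars between matrices of determinant one have norm one -/
theorem norm_scalar (hn : n ≠ 0) {g h : SpecialLinearGroup (Fin n) k} {c : k}
    (e : g.1 = c • h.1) : ‖c‖ = 1 := by
  have h1 := congrArg Matrix.det e
  rw [det_smul, g.2, h.2, mul_one, Fintype.card_fin] at h1
  have h2 : ‖c‖ ^ n = 1 := by rw [← norm_pow, ← h1, norm_one]
  exact (pow_eq_one_iff_of_nonneg (norm_nonneg c) hn).1 h2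

theorem nmx_scalar (hn : n ≠ 0) {g h : SpecialLinearGroup (Fin n) k} {c : k}
    (e : g.1 = c • h.1) : nmx g.1 = nmx h.1 := by
  rw [e, H35.nmx_smul, norm_scalar hn e, one_mul]

/-- the homomorphism to `PGL_n(k)` -/
noncomputable def phG (q : Γ → G)
    (hq : ∀ γ γ', ∃ c : k, (q (γ * γ')).1.1 = c • ((q γ).1 * (q γ').1).1) : Γ →* PG k n :=
  MonoidHom.mk' (fun γ => sp k n (q γ).1) fun γ γ' => by
    obtain ⟨c, hc⟩ := hq γ γ'
    rw [← map_mul]
    exact (H35.mkP_eq_iff.2 ⟨c, hc⟩).symm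

theorem phG_apply (q : Γ → G)
    (hq : ∀ γ γ', ∃ c : k, (q (γ * γ')).1.1 = c • ((q γ).1 * (q γ').1).1) (γ : Γ) :
    phG q hq γ = sp k n (q γ).1 := rfl

/-- uniform discreteness -/
theorem ud_of_fin (hn : n ≠ 0) {q : Γ → G}
    (hq : ∀ γ γ', ∃ c : k, (q (γ * γ')).1.1 = c • ((q γ).1 * (q γ').1).1)
    (hf : ∀ C : ℝ, {γ : Γ | nmx (q γ).1.1 ≤ C}.Finite) (C : ℝ) : ∃ M : ℕ, ∀ S : Finset Γ,
      (∀ γ ∈ S, ∀ γ' ∈ S, nmx ((q γ') * (q γ)⁻¹).1.1 ≤ C) → S.card ≤ M := by
  classical
  refine ⟨(hf C).toFinset.card, fun S hS => ?_⟩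
  rcases S.eq_empty_or_nonempty with rfl | ⟨γ₀, h₀⟩
  · simp
  · rw [← Finset.card_image_of_injective S (mul_left_injective γ₀⁻¹)]
    refine Finset.card_le_card fun x hx => ?_
    obtain ⟨γ, hγ, rfl⟩ := Finset.mem_image.1 hx
    rw [Set.Finite.mem_toFinset, Set.mem_setOf_eq]
    have h1 : sp k n (q (γ * γ₀⁻¹)).1 = sp k n ((q γ) * (q γ₀)⁻¹).1 := by
      rw [← phG_apply q hq, map_mul, map_inv, phG_apply, phG_apply]
      show _ = sp k n ((q γ).1 * (q γ₀).1⁻¹)
      rw [map_mul, map_inv]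
    obtain ⟨c, hc⟩ := H35.mkP_eq_iff.1 h1.symm
    have hc' : (q (γ * γ₀⁻¹)).1.1 = c • ((q γ) * (q γ₀)⁻¹).1.1 := hc
    show nmx (q (γ * γ₀⁻¹)).1.1 ≤ C
    rw [nmx_scalar hn hc']
    exact hS γ₀ h₀ γ hγ

end tgt

/-! ### Moore sets -/

section moore

/-- images of Moore sets under continuous surjective homomorphisms -/
theorem moore_image {S E : Type} [Group S] [TopologicalSpace S] [Group E] [TopologicalSpace E]
    (ι : S →* E) (hι : Continuous ι) (hs : Function.Surjective ι) {A : Set S} (hM : Moore A) :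
    Moore (ι '' A) := by
  refine H387.Nm.moore_over ι hι ?_ fun e => ?_
  · intro X _ _ _ u hu hc ξ hξ g
    exact hM X u hu hc ξ (fun s hs => hξ s ⟨s, hs, rfl⟩) g
  · obtain ⟨s, rfl⟩ := hs e
    exact ⟨1, one_mem _, s, (one_mul _).symm⟩

theorem moore_of_pre {S E : Type} [Group S] [TopologicalSpace S] [Group E] [TopologicalSpace E]
    (ι : S →* E) (hι : Continuous ι) (hs : Function.Surjective ι) {B : Set E} (hM : Moore (ι ⁻¹' B)) :
    Moore B := by
  refine H387.Nm.moore_over ι hι hM fun e => ?_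
  obtain ⟨s, rfl⟩ := hs e
  exact ⟨1, one_mem _, s, (one_mul _).symm⟩

end moore

/-! ### Lattices -/

section lat

variable {E E' Γ : Type} [Group E] [TopologicalSpace E] [IsTopologicalGroup E] [Group E']
  [TopologicalSpace E'] [IsTopologicalGroup E'] [Group Γ]

theorem inj_comp_icc (hicc : ICC Γ) {i : Γ →* E} (hi : Function.Injective i) (p : E →* E')
    (hz : ∀ e, p e = 1 → ∀ x, x * e = e * x) : Function.Injective (p.comp i) := by
  rw [injective_iff_map_eq_one]
  intro g hg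
  by_contra hne
  refine hicc g hne ?_
  have h1 : {y : Γ | ∃ h, y = h * g * h⁻¹} ⊆ {g} := by
    rintro y ⟨h, rfl⟩
    have h2 : h * g = g * h := hi (by rw [map_mul, map_mul]; exact hz (i g) hg (i h))
    rw [Set.mem_singleton_iff, h2, mul_inv_cancel_right]
  exact (Set.finite_singleton g).subset h1

theorem lat_comp [T2Space E] [T2Space E'] [LocallyCompactSpace E'] {i : Γ →* E}
    (hl : IsLattice i.range) (p : E →* E') (hc : Continuous p) (hs : Function.Surjective p)
    (hp : ∀ C : Set E', IsCompact C → IsCompact (p ⁻¹' C)) : IsLattice (p.comp i).range := by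
  haveI := hl.disc
  rw [MonoidHom.range_comp]
  exact H793.lattice_map p hc hs hl (H793.discrete_map p hp _)

end lat

section latG

variable {k : Type} [NontriviallyNormedField k] [ProperSpace k] {n : ℕ}
  {G : Subgroup (SpecialLinearGroup (Fin n) k)} {Γ : Type} [Group Γ]

/-- **ICC lattices of `G` are ICC lattices of `G ⧸ Z`.** -/
theorem lat_quo (hn : n ≠ 0) (hG : IsClosed (G : Set (SpecialLinearGroup (Fin n) k)))
    (Z : Subgroup G) [Z.Normal] (hZ : Sc Z) (hicc : ICC Γ) (i : Γ →* G)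
    (hi : Function.Injective i) (hl : IsLattice i.range) :
    Function.Injective ((QuotientGroup.mk' Z).comp i) ∧
      IsLattice ((QuotientGroup.mk' Z).comp i).range := by
  haveI := t2_quo hn hZ
  haveI := lc_quo (Z := Z) hG
  refine ⟨inj_comp_icc hicc hi _ fun e he x => ?_,
    lat_comp hl _ continuous_quotient_mk' (QuotientGroup.mk'_surjective Z) (proper_quo hn hZ)⟩
  exact spG_central (hZ.one ((QuotientGroup.eq_one_iff e).1 he)) x

/-- ICC groups in `G ⧸ Z` act faithfully on the projective space -/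
theorem spq_inj_icc (Z : Subgroup G) [Z.Normal] (hZ : Sc Z) (hicc : ICC Γ) (i : Γ →* G ⧸ Z)
    (hi : Function.Injective i) : Function.Injective ((spq Z hZ).comp i) := by
  refine inj_comp_icc (E' := PG k n) hicc hi _ fun e he x => ?_
  obtain ⟨g, rfl⟩ := QuotientGroup.mk'_surjective Z e
  obtain ⟨y, rfl⟩ := QuotientGroup.mk'_surjective Z x
  rw [← map_mul, ← map_mul, spG_central (g := g) he y]

end latG

end Vale.Agent.P092.H684.Psp
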