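import Vale.Agent.P092.H684.Psp5
import Vale.Agent.P092.H644.PGr
import Vale.Agent.P092.H933.GLGap2

/-!
P092, TEAM P, [P-PSP] (helper684), part 6: the transfer of the source facts from `Sp_4(k)` to a
proper central quotient `ι : S4 k →* E` (`E = PSp_4(k)`): walls go to infinity, stabilisers,
Weyl elements, gaps, continuous actions on points and lines.
-/

set_option linter.all false

open scoped InnerProductSpace LinearAlgebra.Projectivization
open Matrix Filter Topology Set

namespace Vale.Agent.P092.H684.Psp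

open Vale.Agent.P092.RC (Moore PG YY GG)
open Vale.Agent.P092.H35 (sp mkP nmx)
open Vale.Agent.P092.SP4 (J4 S4 LL)
open Vale.Agent.P092.H933 (LeviGap URep fixedSub)

section abs

variable {S E : Type} [Group S] [TopologicalSpace S] [Group E] [TopologicalSpace E] (ι : S →* E)

/-- proper maps preserve divergence -/
theorem tendsto_proper (hp : ∀ C : Set E, IsCompact C → IsCompact (ι ⁻¹' C)) :
    Tendsto ι (cocompact S) (cocompact E) := by
  rw [hasBasis_cocompact.tendsto_right_iff]
  intro C hC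
  filter_upwards [(hp C hC).compl_mem_cocompact] with x hx hx'
  exact hx hx'

theorem pow_proper (hp : ∀ C : Set E, IsCompact C → IsCompact (ι ⁻¹' C)) {b : S}
    (hb : Tendsto (fun n : ℕ => b ^ n) atTop (cocompact S)) :
    Tendsto (fun n : ℕ => (ι b) ^ n) atTop (cocompact E) := by
  have h := (tendsto_proper ι hp).comp hb
  refine h.congr fun n => ?_
  exact map_pow ι b n

/-- stabilisers of a point -/
theorem stab_proper (hc : Continuous ι) (hs : Function.Surjective ι) {Z : Type} [MulAction S Z]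
    [MulAction E Z] (comp : ∀ g (z : Z), ι g • z = g • z) {b : S} {z0 : Z}
    (stab : ∀ g : S, g • z0 = z0 → ∃ v n, g = v * n ∧ v * b = b * v ∧
      Tendsto (fun N : ℕ => (b ^ N)⁻¹ * n * b ^ N) atTop (𝓝 1)) (g : E) (hg : g • z0 = z0) :
    ∃ v n, g = v * n ∧ v * ι b = ι b * v ∧
      Tendsto (fun N : ℕ => (ι b ^ N)⁻¹ * n * ι b ^ N) atTop (𝓝 1) := by
  obtain ⟨x, rfl⟩ := hs g
  obtain ⟨v, n, h1, h2, h3⟩ := stab x (by rwa [comp] at hg)
  refine ⟨ι v, ι n, by rw [h1, map_mul], by rw [← map_mul, h2, map_mul], ?_⟩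
  have h4 : Tendsto (fun N : ℕ => ι ((b ^ N)⁻¹ * n * b ^ N)) atTop (𝓝 1) := by
    have := (hc.tendsto 1).comp h3
    rwa [map_one] at this
  refine h4.congr fun N => ?_
  rw [map_mul, map_mul, map_inv, map_pow]

theorem trans_proper (hs : Function.Surjective ι) {Z : Type} [MulAction S Z] [MulAction E Z]
    (comp : ∀ g (z : Z), ι g • z = g • z) {z0 : Z} (trans : ∀ z : Z, ∃ g : S, g • z0 = z) (z : Z) :
    ∃ g : E, g • z0 = z := by
  obtain ⟨g, hg⟩ := trans z
  exact ⟨ι g, by rw [comp, hg]⟩

/-- conjugation by the image of a Weyl element -/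
theorem weyl_proper {b w : S} (h : w * b * w⁻¹ = b⁻¹) :
    (MulAut.conj (ι w)).toMonoidHom (ι b) = (ι b)⁻¹ := by
  show ι w * ι b * (ι w)⁻¹ = _
  rw [← map_mul, ← map_inv, ← map_mul, h, map_inv]

/-- **the gap passes to quotients** -/
theorem leviGap_proper (hc : Continuous ι) (hs : Function.Surjective ι) {b : S} (h : LeviGap b) :
    LeviGap (ι b) := by
  intro 𝓗 _ _ _ σ hσ e he
  have hσ' : URep (σ.comp ι) := ⟨fun g v => hσ.1 (ι g) v, fun v => by
    have h1 : Tendsto (fun g => σ (ι g) v) (𝓝 1) (𝓝 v) := by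
      have h2 := hc.tendsto 1
      rw [map_one] at h2
      exact (hσ.2 v).comp h2
    exact h1⟩
  obtain ⟨p, hp, l, hl, hl'⟩ := h 𝓗 (σ.comp ι) hσ' e he
  refine ⟨p, hp, fun i => ι (l i), fun i => ?_, fun v hv => ?_⟩
  · show ι (l i) * ι b = ι b * ι (l i)
    rw [← map_mul, (hl i).eq, map_mul]
  · refine hl' v fun η hη => hv η ?_
    intro g
    obtain ⟨x, rfl⟩ := hs g
    exact hη x

end abs

/-! ### Actions of `PSp_4(k)` -/

section act

variable {k : Type} [NontriviallyNormedField k]

noncomputable instance actP : MulAction (PSp4 k) (YY k 3) :=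
  MulAction.compHom (YY k 3) (spq (Subgroup.center (S4 k)) (scc k) : PSp4 k →* PG k 4)

noncomputable instance actL : MulAction (PSp4 k) (LL k) :=
  MulAction.compHom (LL k) (aL (Subgroup.center (S4 k)) (scc k))

theorem mk_smul_P (g : S4 k) (x : YY k 3) :
    (QuotientGroup.mk' (Subgroup.center (S4 k)) g) • x = g • x := rfl

theorem mk_smul_L (g : S4 k) (x : LL k) :
    (QuotientGroup.mk' (Subgroup.center (S4 k)) g) • x = g • x := rfl

theorem qO_smul_P (e : PSp4 k) (x : YY k 3) : qO (Subgroup.center (S4 k)) e • x = e • x :=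
  (spq_qO (scc k) e x).symm

theorem qO_smul_L (e : PSp4 k) (x : LL k) : qO (Subgroup.center (S4 k)) e • x = e • x :=
  (aL_qO (scc k) e x).symm

/-- a continuous action passes to quotients -/
theorem csmul_quo {G Y : Type} [Group G] [TopologicalSpace G] [IsTopologicalGroup G]
    (Z : Subgroup G) [Z.Normal] [TopologicalSpace Y] [MulAction G Y] [ContinuousSMul G Y]
    [MulAction (G ⧸ Z) Y] (h : ∀ g (y : Y), (QuotientGroup.mk' Z g) • y = g • y) :
    ContinuousSMul (G ⧸ Z) Y where
  continuous_smul := by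
    have h1 : IsOpenQuotientMap (QuotientGroup.mk : G → G ⧸ Z) := QuotientGroup.isOpenQuotientMap_mk
    have h2 := h1.prodMap (IsOpenQuotientMap.id (X := Y))
    rw [h2.isQuotientMap.continuous_iff]
    have e : (fun p : (G ⧸ Z) × Y => p.1 • p.2) ∘ Prod.map (QuotientGroup.mk : G → G ⧸ Z) id =
        fun p : G × Y => p.1 • p.2 := by
      funext p
      exact h p.1 p.2
    rw [e]
    exact continuous_smul

instance csP : ContinuousSMul (PSp4 k) (YY k 3) := csmul_quo _ mk_smul_P

instance csL : ContinuousSMul (PSp4 k) (LL k) := csmul_quo _ mk_smul_L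

end act

end Vale.Agent.P092.H684.Psp
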