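import Vale.Agent.P092.H684.Psp3
import Vale.Agent.P092.SP.Top

/-!
P092, TEAM P, [P-PSP] (helper684), part 4: the top of the assembly for all proper central extensions
of `PSp_4(k)`, from the core statement of `PSp_4(k)`.
-/

set_option linter.all false

open Matrix Filter Topology

namespace Vale.Agent.P092.H684.Psp

open Vale.Agent.P092.H515.St (IsLattice LocK)
open Vale.Agent.P092.SR.St (ICC Super)
open Vale.Agent.P092.H303 (FormGroup)
open Vale.Agent.P092.SP4 (J4 S4)
open Vale.Agent.P092.SN (CoreE super_of_coreE)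


theorem J_eq (k : Type) [Field k] : SP.St.J k = J4 k := rfl

/-- ICC lattices of groups with proper central quotient `G` -/
theorem super_nc {E G : Type} [Group E] [TopologicalSpace E] [Group G] [TopologicalSpace G]
    [IsTopologicalGroup G] [T2Space G] [LocallyCompactSpace G] (hE : NC E G) (h : CoreE G)
    {Γ : Type} [Group Γ] (hicc : ICC Γ) (i : Γ →* E) (hi : Function.Injective i)
    (hl : IsLattice i.range) : Super Γ := by
  obtain ⟨i', hi', hl'⟩ := lat_nc hE hicc i hi hl
  exact super_of_coreE h hicc i' hi' hl'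

/-- **The top**: the core statement for `PSp_4(k)` gives all ICC lattices of all Hausdorff groups with
a proper central quotient `PSp_4(k)`, for example `Sp_4(k)`. -/
theorem superNC_of (h : ∀ (k : Type) [NontriviallyNormedField k] [ProperSpace k], LocK k →
    (2 : k) ≠ 0 → CoreE (PSp4 k)) (k : Type) [NontriviallyNormedField k] [ProperSpace k]
    (hk : LocK k) (h2 : (2 : k) ≠ 0) (E : Type) [Group E] [TopologicalSpace E]
    (hE : NC E (PSp4 k)) {Γ : Type} [Group Γ] (hicc : ICC Γ) (i : Γ →* E)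
    (hi : Function.Injective i) (hl : IsLattice i.range) : Super Γ :=
  super_nc hE (h k hk h2) hicc i hi hl

theorem nc_sp4 (k : Type) [NontriviallyNormedField k] : NC (S4 k) (PSp4 k) :=
  nc_G (by norm_num) (scc k)

theorem nc_psp4 (k : Type) [NontriviallyNormedField k] : NC (PSp4 k) (PSp4 k) := nc_refl _

/-- `Sp_4(k)` -/
theorem final1_of_psp (h : ∀ (k : Type) [NontriviallyNormedField k] [ProperSpace k], LocK k →
    (2 : k) ≠ 0 → CoreE (PSp4 k)) : SP.St.Final1 := by
  intro Γ _ hΓ
  obtain ⟨hicc, k, _, G, i, hp, hk, h2, hG, hi, hl⟩ := hΓ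
  obtain rfl := SP.eq_form hG
  exact superNC_of h k hk h2 (S4 k) (nc_sp4 k) hicc i hi hl

/-! ### Literal form -/

/-- `Γ` is an ICC lattice in a Hausdorff topological group `E` with a proper continuous homomorphism
with central kernel onto `Sp_4(k) ⧸ {1, -1}`, `k` a local field of characteristic not two. -/
def SpLatticeC (Γ : Type) [Group Γ] : Prop :=
  ICC Γ ∧ ∃ (k : Type) (_ : NontriviallyNormedField k)
    (G : Subgroup (SpecialLinearGroup (Fin 4) k)) (E : Type) (_ : Group E) (_ : TopologicalSpace E)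
    (p : E →* G ⧸ Subgroup.center G) (i : Γ →* E),
    ProperSpace k ∧ SP.St.IsSp k G ∧ (2 : k) ≠ 0 ∧ LocK k ∧ IsTopologicalGroup E ∧ T2Space E ∧
    Continuous p ∧ Function.Surjective p ∧ (∀ C, IsCompact C → IsCompact (p ⁻¹' C)) ∧
    (∀ e, p e = 1 → ∀ x, x * e = e * x) ∧ Function.Injective i ∧ IsLattice i.range

theorem finalC_of (h : ∀ (k : Type) [NontriviallyNormedField k] [ProperSpace k], LocK k →
    (2 : k) ≠ 0 → CoreE (PSp4 k)) (Γ : Type) [Group Γ] (hΓ : SpLatticeC Γ) : Super Γ := by
  obtain ⟨hicc, k, _, G, E, _, _, p, i, hp, hG, h2, hk, tg, t2, hc, hs, hpr, hz, hi, hl⟩ := hΓ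
  obtain rfl := SP.eq_form hG
  exact superNC_of h k hk h2 E ⟨tg, t2, p, hc, hs, hpr, hz⟩ hicc i hi hl

end Vale.Agent.P092.H684.Psp
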