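import Vale.Agent.P092.H684.Psp6

/-!
P092, TEAM P, [P-PSP] (helper684), part 7: one interface for all source groups of stage 1:
`Cov ι a`: `ι : S4 k →* E` a continuous proper surjective homomorphism with scalar kernel, `a` the
action on the projective space; lattices `Γ ≤ E` with any section `q : Γ → S4 k`, `ι (q γ) = γ`.
-/

set_option linter.all false

open scoped InnerProductSpace LinearAlgebra.Projectivization
open Matrix Filter Topology Set

namespace Vale.Agent.P092.H684.Psp

open Vale.Agent.P092.RC (Moore PG YY GG)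
open Vale.Agent.P092.H35 (sp mkP nmx)
open Vale.Agent.P092.SP4 (J4 S4 LL)
open Vale.Agent.P092.H933 (LeviGap)

/-- The source groups of stage 1. -/
structure Cov {k : Type} [NontriviallyNormedField k] {E : Type} [Group E] [TopologicalSpace E]
    (ι : S4 k →* E) (a : E →* PG k 4) : Prop where
  tg : IsTopologicalGroup E
  t2 : T2Space E
  cι : Continuous ι
  sur : Function.Surjective ι
  prop : ∀ C : Set E, IsCompact C → IsCompact (ι ⁻¹' C)
  ker : ∀ z, ι z = 1 → ∃ c : k, z.1.1 = c • (1 : Matrix (Fin 4) (Fin 4) k)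
  ca : Continuous a
  comp : ∀ g, a (ι g) = sp k 4 g.1

/-- `Sp_4(k)` -/
theorem cov_id {k : Type} [NontriviallyNormedField k] :
    Cov (MonoidHom.id (S4 k)) ((sp k 4).comp (S4 k).subtype) where
  tg := inferInstance
  t2 := inferInstance
  cι := continuous_id
  sur := Function.surjective_id
  prop C hC := hC
  ker z hz := ⟨1, by
    have hz : z = 1 := hz
    rw [hz, one_smul]
    rfl⟩
  ca := spG_cont
  comp g := rfl

/-- `Sp_4(k) ⧸ Z`, `Z` central -/
theorem cov_quo {k : Type} [NontriviallyNormedField k] (Z : Subgroup (S4 k)) [Z.Normal]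
    (hZ : Z ≤ Subgroup.center (S4 k)) :
    Cov (QuotientGroup.mk' Z) (spq Z (sc4_of_le hZ)) where
  tg := inferInstance
  t2 := t2_quo (by norm_num) (sc4_of_le hZ)
  cι := continuous_quotient_mk'
  sur := QuotientGroup.mk'_surjective Z
  prop := proper_quo (by norm_num) (sc4_of_le hZ)
  ker z hz := sc4_of_le hZ z ((QuotientGroup.eq_one_iff z).1 hz)
  ca := spq_cont _
  comp g := rfl

/-- `PSp_4(k)` -/
theorem cov_psp {k : Type} [NontriviallyNormedField k] :
    Cov (QuotientGroup.mk' (Subgroup.center (S4 k))) (spq (Subgroup.center (S4 k)) (scc k)) :=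
  cov_quo _ le_rfl

namespace Cov

variable {k : Type} [NontriviallyNormedField k] {E : Type} [Group E] [TopologicalSpace E]
  {ι : S4 k →* E} {a : E →* PG k 4} (h : Cov ι a)

include h

theorem ker_central {z : S4 k} (hz : ι z = 1) (x : S4 k) : x * z = z * x :=
  spG_central (spG_one_iff.2 (h.ker z hz)) x

theorem adm [ProperSpace k] : SP.Adm ι a :=
  adm_of h.tg ι h.cι h.sur a h.ca h.comp

theorem noncompact : NoncompactSpace E := by
  haveI := SP.nc_S4 (k := k)
  refine ⟨fun h1 => noncompact_univ (S4 k) ?_⟩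
  simpa using h.prop _ h1

/-- `ι` is an open map (`E` a Baire space): not needed, `ι` is closed and proper -/
theorem closedMap [LocallyCompactSpace E] : IsClosedMap ι := by
  haveI := h.t2
  have h1 : IsProperMap ι := isProperMap_iff_isCompact_preimage.2 ⟨h.cι, fun {K} hK => h.prop K hK⟩
  exact h1.isClosedMap

theorem quotientMap [LocallyCompactSpace E] : IsQuotientMap ι :=
  h.closedMap.isQuotientMap h.cι h.sur

theorem secondCountable [ProperSpace k] [IsTopologicalGroup E] [LocallyCompactSpace E] :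
    SecondCountableTopology E := by
  haveI := sc4 (k := k)
  have h1 : IsOpenQuotientMap ι := MonoidHom.isOpenQuotientMap_of_isQuotientMap h.quotientMap
  exact h1.isQuotientMap.secondCountableTopology h1.isOpenMap

theorem pow {b : S4 k} (hb : Tendsto (fun n : ℕ => b ^ n) atTop (cocompact (S4 k))) :
    Tendsto (fun n : ℕ => (ι b) ^ n) atTop (cocompact E) := pow_proper ι h.prop hb

/-- the walls go to infinity -/
theorem pow_B1 {w : kˣ} (hw : ‖(w : k)‖ < 1) :
    Tendsto (fun n : ℕ => (ι (SP.B1 w)) ^ n) atTop (cocompact E) := h.pow (SP.pow_B1 hw)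

theorem pow_B2 {w : kˣ} (hw : ‖(w : k)‖ < 1) :
    Tendsto (fun n : ℕ => (ι (SP.B2 w)) ^ n) atTop (cocompact E) := h.pow (SP.pow_B2 hw)

theorem leviGap {b : S4 k} (hb : LeviGap b) : LeviGap (ι b) := leviGap_proper ι h.cι h.sur hb

/-- equal images differ by a scalar -/
theorem exists_scalar {g g' : S4 k} (e : ι g = ι g') : ∃ c : k, g.1.1 = c • g'.1.1 := by
  have h1 : ι (g'⁻¹ * g) = 1 := by rw [map_mul, map_inv, e, inv_mul_cancel]
  obtain ⟨c, hc⟩ := h.ker _ h1
  refine ⟨c, ?_⟩
  have h2 : g.1.1 = g'.1.1 * (g'⁻¹ * g).1.1 := by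
    have : g = g' * (g'⁻¹ * g) := by rw [mul_inv_cancel_left]
    conv_lhs => rw [this]
    rfl
  rw [h2, hc, mul_smul_comm, mul_one]

theorem nm_eq {g g' : S4 k} (e : ι g = ι g') : SP.nm g = SP.nm g' := by
  obtain ⟨c, hc⟩ := h.exists_scalar e
  exact nmx_scalar (by norm_num) hc

section sec

variable {Γ : Type} [Group Γ] (i : Γ →* E) {q : Γ → S4 k} (hq : ∀ γ, ι (q γ) = i γ)

include hq

/-- sections are homomorphisms modulo scalars -/
theorem ph : SP.PH q := by
  intro γ γ'
  obtain ⟨c, hc⟩ := h.exists_scalar (g := q (γ * γ')) (g' := q γ * q γ') (by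
    rw [hq, map_mul, map_mul, hq, hq])
  exact ⟨c, hc⟩

theorem fin [ProperSpace k] (hi : Function.Injective i) (hd : DiscreteTopology i.range) (C : ℝ) :
    {γ : Γ | SP.nm (q γ) ≤ C}.Finite := by
  haveI := h.t2
  haveI := h.tg
  have h1 : IsCompact (ι '' {g : S4 k | nmx g.1.1 ≤ C}) := (compact_bdd closed4 C).image h.cι
  have h2 := H790.finite_inter i.range h1
  refine Set.Finite.of_finite_image (f := fun γ : Γ => (⟨i γ, γ, rfl⟩ : i.range))
    (h2.subset ?_) fun γ _ γ' _ e => hi (congrArg Subtype.val e)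
  rintro _ ⟨γ, hγ, rfl⟩
  exact ⟨q γ, hγ, hq γ⟩

theorem ud [ProperSpace k] (hi : Function.Injective i) (hd : DiscreteTopology i.range) :
    SP.UD q := ud_any (h.ph i hq) (h.fin i hq hi hd)

theorem inj (hicc : ∀ g : Γ, g ≠ 1 → Set.Infinite {y : Γ | ∃ h, y = h * g * h⁻¹})
    (hi : Function.Injective i) (γ : Γ) (h1 : sp k 4 (q γ).1 = 1) : γ = 1 := by
  by_contra hne
  refine hicc γ hne ?_
  have h2 : {y : Γ | ∃ h, y = h * γ * h⁻¹} ⊆ {γ} := by
    rintro y ⟨x, rfl⟩
    have h3 : x * γ = γ * x := by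
      apply hi
      rw [map_mul, map_mul, ← hq γ, ← hq x, ← map_mul, ← map_mul,
        spG_central (g := q γ) h1 (q x)]
    rw [Set.mem_singleton_iff, h3, mul_inv_cancel_right]
  exact (Set.finite_singleton γ).subset h2

end sec

/-- sections exist -/
theorem exists_sec {Γ : Type} (i : Γ → E) : ∃ q : Γ → S4 k, ∀ γ, ι (q γ) = i γ := by
  choose q hq using fun γ => h.sur (i γ)
  exact ⟨q, hq⟩

/-- the form for subgroups `Γ ≤ E` -/
theorem exists_sec' (Γ : Subgroup E) : ∃ q : Γ → S4 k, ∀ γ : Γ, ι (q γ) = Γ.subtype γ :=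
  h.exists_sec _

end Cov

end Vale.Agent.P092.H684.Psp
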