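import Vale.Agent.P092.H684.Psp4
import Vale.Agent.P092.H684.Psp7
import Vale.Agent.P092.SP.Main

/-!
P092, TEAM P, [P-PSP] (helper684), part 8: the assembly of `SP/Main` for every source group of the
class `Cov`, and the final statement for all Hausdorff groups with a proper central quotient
`PSp_4(k)`.
-/

set_option linter.all false

open scoped InnerProductSpace ENNReal LinearAlgebra.Projectivization ZeroAtInfty
open Filter Topology ContinuousLinearMap MeasureTheory TopologicalSpace Matrix

namespace Vale.Agent.P092.H684.Psp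

open Vale.Agent.P092.RC (PG YY)
open Vale.Agent.P092.H35 (sp)
open Vale.Agent.P092.SP4 (J4 S4 LL)
open Vale.Agent.P092.SN (CoreE)
open Vale.Agent.P092.SP (OneStmt ClsStmt XCStmt ExStmt)
open Vale.Agent.P092.SR.St (ICC Super)
open Vale.Agent.P092.H515.St (IsLattice)

/-- **Assembly for the class `Cov`** -/
theorem coreE_cov {k : Type} [NontriviallyNormedField k] [ProperSpace k] [MeasurableSpace k]
    {μ : Measure k} {E : Type} [Group E] [TopologicalSpace E]
    [IsTopologicalGroup E] [LocallyCompactSpace E] [SecondCountableTopology E] [T2Space E]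
    {ι : S4 k →* E} {a : E →* PG k 4} (h : Cov ι a)
    (hOne : OneStmt k μ) (hCls : ClsStmt k μ) (hXC : XCStmt k) (hEx : ExStmt k μ ι a) :
    CoreE E := by
  haveI := h.noncompact
  exact SP.coreE_of hOne hCls hXC hEx

/-- the core statement of `PSp_4(k)` -/
theorem coreE_psp {k : Type} [NontriviallyNormedField k] [ProperSpace k] [MeasurableSpace k]
    {μ : Measure k} (hOne : OneStmt k μ) (hCls : ClsStmt k μ) (hXC : XCStmt k)
    (hEx : ExStmt k μ (E := PSp4 k) (QuotientGroup.mk' (Subgroup.center (S4 k)))
      (spq (Subgroup.center (S4 k)) (scc k))) : CoreE (PSp4 k) :=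
  coreE_cov cov_psp hOne hCls hXC hEx

/-- **The top for all local fields with `2 ≠ 0` of a class `P`**: ICC lattices of all Hausdorff groups
with a proper central quotient `PSp_4(k)`. -/
theorem super_of_ex {k : Type} [NontriviallyNormedField k] [ProperSpace k] [MeasurableSpace k]
    {μ : Measure k} (hOne : OneStmt k μ) (hCls : ClsStmt k μ) (hXC : XCStmt k)
    (hEx : ExStmt k μ (E := PSp4 k) (QuotientGroup.mk' (Subgroup.center (S4 k)))
      (spq (Subgroup.center (S4 k)) (scc k)))
    {E : Type} [Group E] [TopologicalSpace E] (hE : NC E (PSp4 k)) {Γ : Type} [Group Γ]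
    (hicc : ICC Γ) (i : Γ →* E) (hi : Function.Injective i) (hl : IsLattice i.range) : Super Γ :=
  super_nc hE (coreE_psp hOne hCls hXC hEx) hicc i hi hl

end Vale.Agent.P092.H684.Psp
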