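import Vale.Agent.P092.H684.Psp2
import Vale.Agent.P092.H370.Sp4
import Vale.Agent.P092.H789.Fr

/-!
P092, TEAM P, [P-PSP] (helper684), part 3: `PSp_4(k) = S4 k ⧸ {1, -1}`, in the letters of
`H370.Sp4`: topology, actions on points and lines, representatives, Moore sets, ICC lattices.
-/

set_option linter.all false

open Matrix Filter Topology

namespace Vale.Agent.P092.H684.Psp

open Vale.Agent.P092.RC (Moore PG YY GG)
open Vale.Agent.P092.H35 (sp mkP nmx)
open Vale.Agent.P092.H515.St (IsLattice)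
open Vale.Agent.P092.SR.St (ICC)
open Vale.Agent.P092.H303 (FormGroup)
open Vale.Agent.P092.H15 (HMG Alt)
open Vale.Agent.P092.SP4 (J4 S4 LL om on mem_S4 prp)

theorem alt4 (k : Type) [Field k] : Alt (J4 k) where
  diag i := by fin_cases i <;> simp [J4]
  skew i j := by fin_cases i <;> fin_cases j <;> simp [J4]
  det := by
    have h : (J4 k).det = 1 := (SP4.j4 (k := k)).2
    rw [h]
    exact one_ne_zero

section s4

variable {k : Type} [NontriviallyNormedField k]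

theorem closed4 : IsClosed (S4 k : Set (SpecialLinearGroup (Fin 4) k)) := closed_alt

theorem lc4 [ProperSpace k] : LocallyCompactSpace (S4 k) := lc_G closed4

theorem sc4 [ProperSpace k] : SecondCountableTopology (S4 k) := sc_G

/-- Howe–Moore -/
theorem hmg4 [ProperSpace k] : HMG (S4 k) := H15.hmg_alt (alt4 k)

/-- **The centre of `Sp_4(k)` is `{1, -1}`.** -/
theorem center4 {z : S4 k} : z ∈ Subgroup.center (S4 k) ↔ z.1.1 = 1 ∨ z.1.1 = -1 :=
  center_alt (alt4 k)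

theorem sc4_of_le {Z : Subgroup (S4 k)} (hZ : Z ≤ Subgroup.center (S4 k)) : Sc Z :=
  sc_of_le (alt4 k) hZ

variable (k) in
/-- `PSp_4(k)` -/
abbrev PSp4 : Type := S4 k ⧸ Subgroup.center (S4 k)

variable (k) in
theorem scc : Sc (Subgroup.center (S4 k)) := sc4_of_le le_rfl

instance t2_psp4 : T2Space (PSp4 k) := t2_quo (by norm_num) (scc k)

instance lc_psp4 [ProperSpace k] : LocallyCompactSpace (PSp4 k) := lc_quo closed4

instance sc_psp4 [ProperSpace k] : SecondCountableTopology (PSp4 k) := sc_quo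

/-- scalars fix the lines -/
theorem smul_LL_of_sc {z : S4 k} (hz : ∃ c : k, z.1.1 = c • (1 : Matrix (Fin 4) (Fin 4) k))
    (l : LL k) : z • l = l := by
  obtain ⟨c, hc⟩ := hz
  have hc0 : c ≠ 0 := by
    rintro rfl
    have h1 := z.1.2
    rw [hc, zero_smul, det_zero] at h1
    exact zero_ne_one h1
  have hv : ∀ v : Fin 4 → k, z.1 • v = c • v := by
    intro v
    change z.1.1 *ᵥ v = c • v
    rw [hc, smul_mulVec, one_mulVec]
  refine Subtype.ext (Subtype.ext ?_)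
  apply le_antisymm
  · rintro _ ⟨x, hx, rfl⟩
    change z.1 • x ∈ l.1.1
    rw [hv]
    exact l.1.1.smul_mem c hx
  · intro x hx
    refine ⟨c⁻¹ • x, l.1.1.smul_mem _ hx, ?_⟩
    change z.1 • (c⁻¹ • x) = x
    rw [hv, smul_inv_smul₀ hc0]

/-- `PSp_4(k) ⊇ S4 ⧸ Z` acts on the lines -/
noncomputable def aL (Z : Subgroup (S4 k)) [Z.Normal] (hZ : Sc Z) : S4 k ⧸ Z →* Equiv.Perm (LL k) :=
  QuotientGroup.lift Z (MulAction.toPermHom (S4 k) (LL k)) fun z hz =>
    MonoidHom.mem_ker.2 (Equiv.ext fun l => smul_LL_of_sc (hZ z hz) l)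

theorem aL_mk {Z : Subgroup (S4 k)} [Z.Normal] (hZ : Sc Z) (g : S4 k) (l : LL k) :
    aL Z hZ (QuotientGroup.mk' Z g) l = g • l := rfl

/-- the action on the points -/
theorem spq_smul {Z : Subgroup (S4 k)} [Z.Normal] (hZ : Sc Z) (g : S4 k) (x : YY k 3) :
    (spq Z hZ (QuotientGroup.mk' Z g) : PG k 4) • x = g • x := rfl

theorem aL_qO {Z : Subgroup (S4 k)} [Z.Normal] (hZ : Sc Z) (e : S4 k ⧸ Z) (l : LL k) :
    aL Z hZ e l = qO Z e • l := by
  conv_lhs => rw [← mk_qO (Z := Z) e]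
  rfl

theorem spq_qO {Z : Subgroup (S4 k)} [Z.Normal] (hZ : Sc Z) (e : S4 k ⧸ Z) (x : YY k 3) :
    (spq Z hZ e : PG k 4) • x = qO Z e • x := by
  conv_lhs => rw [← mk_qO (Z := Z) e]
  rfl

/-- unbounded subsets of `Sp_4(k)` are Moore sets in the quotients -/
theorem moore4 [ProperSpace k] {E : Type} [Group E] [TopologicalSpace E] (ι : S4 k →* E)
    (hι : Continuous ι) (hs : Function.Surjective ι) {S : Set (S4 k)}
    (hS : ∀ C : ℝ, ∃ g ∈ S, C < nmx g.1.1) : Moore (ι '' S) :=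
  moore_unb_image hmg4 ι hι hs hS

/-- **ICC lattices of `Sp_4(k)` are ICC lattices of `PSp_4(k)`.** -/
theorem lat_psp4 [ProperSpace k] {Γ : Type} [Group Γ] (hicc : ICC Γ) (i : Γ →* S4 k)
    (hi : Function.Injective i) (hl : IsLattice i.range) :
    ∃ i' : Γ →* PSp4 k, Function.Injective i' ∧ IsLattice i'.range :=
  ⟨_, lat_quo (by norm_num) closed4 _ (scc k) hicc i hi hl⟩

/-- the target letter of a subgroup of `S4 ⧸ Z` -/
theorem target4 [ProperSpace k] (Z : Subgroup (S4 k)) [Z.Normal]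
    (hZ : Z ≤ Subgroup.center (S4 k)) {Γ : Type} [Group Γ] (i : Γ →* S4 k ⧸ Z)
    (hi : Function.Injective i) (hd : DiscreteTopology i.range) :
    ∃ q : Γ → S4 k, (∀ γ, QuotientGroup.mk' Z (q γ) = i γ) ∧
      (∀ γ γ', (q (γ * γ')).1.1 = (q γ).1.1 * (q γ').1.1 ∨
        (q (γ * γ')).1.1 = -((q γ).1.1 * (q γ').1.1)) ∧
      (∀ γ γ', ∃ c : k, (q (γ * γ')).1.1 = c • ((q γ).1 * (q γ').1).1) ∧
      (∀ C : ℝ, {γ : Γ | nmx (q γ).1.1 ≤ C}.Finite) ∧
      ∀ C : ℝ, ∃ M : ℕ, ∀ S : Finset Γ,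
        (∀ γ ∈ S, ∀ γ' ∈ S, nmx ((q γ') * (q γ)⁻¹).1.1 ≤ C) → S.card ≤ M := by
  have h1 := ph_qO (sc4_of_le hZ) i
  have h2 := fin_qO (by norm_num) (sc4_of_le hZ) closed4 i hi hd
  exact ⟨fun γ => qO Z (i γ), fun γ => mk_qO _, ph_sign (alt4 k) hZ i, h1, h2,
    ud_of_fin (by norm_num) h1 h2⟩

end s4

end Vale.Agent.P092.H684.Psp
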