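import Vale.Agent.P092.H684.Rec

/-!
P092, Team C, [C-REC], second part: powers of one homeomorphism, hyperbolic elements on the
projective line.
-/

set_option linter.all false

open Topology Pointwise

namespace Vale.Agent.P092.H684

section pow

variable {Z Z' Γ : Type*} [TopologicalSpace Z] [TopologicalSpace Z']
  [Group Γ] [MulAction Γ Z] [MulAction Γ Z'] {D : Set (Z × Z')} {M : Set Z → Set Z' → ℝ}

/-- Recurrence data from the powers of one element. -/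
noncomputable def RecD.ofPow {X : Type*} {Φ : Z × Z' → X} {V : Set X} (T : Z ≃ₜ Z)
    (T' : Z' ≃ₜ Z') (w : X → X) (hT : ∀ (g : Γ) z, T (g • z) = g • T z)
    (hT' : ∀ (g : Γ) z, T' (g • z) = g • T' z) (hD : ∀ x, x ∈ D → (T x.1, T' x.2) ∈ D)
    (hTM : ∀ C C', CO C → CO C' → C ×ˢ C' ⊆ D → M (T '' C) (T' '' C') = M C C')
    (hw : ∀ x, x ∈ D → Φ (T x.1, T' x.2) = w (Φ x))
    (hV : ∀ n m, n ≠ m → Disjoint (w^[n] '' V) (w^[m] '' V)) : RecD Γ D M Φ V := by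
  have hs : ∀ n : ℕ, ∀ z, (T ^ (n + 1) : Z ≃ₜ Z) z = T ((T ^ n : Z ≃ₜ Z) z) := by
    intro n z
    rw [pow_succ']
    rfl
  have hs' : ∀ n : ℕ, ∀ z, (T' ^ (n + 1) : Z' ≃ₜ Z') z = T' ((T' ^ n : Z' ≃ₜ Z') z) := by
    intro n z
    rw [pow_succ']
    rfl
  have hmem : ∀ n : ℕ, ∀ x, x ∈ D → ((T ^ n : Z ≃ₜ Z) x.1, (T' ^ n : Z' ≃ₜ Z') x.2) ∈ D := by
    intro n
    induction n with
    | zero => intro x hx; exact hx
    | succ n ih =>
      intro x hx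
      rw [hs, hs']
      exact hD _ (ih x hx)
  refine ⟨fun n => T ^ n, fun n => T' ^ n, fun n => w^[n], ?_, ?_, hmem, ?_, ?_, hV⟩
  · intro n g z
    induction n with
    | zero => rfl
    | succ n ih => rw [hs, hs, ih, hT]
  · intro n g z
    induction n with
    | zero => rfl
    | succ n ih => rw [hs', hs', ih, hT']
  · intro n C C' hC hC' hCD
    induction n with
    | zero =>
      have e1 : ((T ^ 0 : Z ≃ₜ Z) '' C) = C := by
        rw [pow_zero]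
        exact Set.image_id C
      have e2 : ((T' ^ 0 : Z' ≃ₜ Z') '' C') = C' := by
        rw [pow_zero]
        exact Set.image_id C'
      rw [e1, e2]
    | succ n ih =>
      have e1 : ((T ^ (n + 1) : Z ≃ₜ Z) '' C) = T '' ((T ^ n : Z ≃ₜ Z) '' C) := by
        rw [Set.image_image]
        exact Set.image_congr fun z _ => hs n z
      have e2 : ((T' ^ (n + 1) : Z' ≃ₜ Z') '' C') = T' '' ((T' ^ n : Z' ≃ₜ Z') '' C') := by
        rw [Set.image_image]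
        exact Set.image_congr fun z _ => hs' n z
      rw [e1, e2, hTM _ _ ⟨hC.1.image (T ^ n).continuous, (T ^ n).isOpenMap _ hC.2⟩
        ⟨hC'.1.image (T' ^ n).continuous, (T' ^ n).isOpenMap _ hC'.2⟩, ih]
      rintro ⟨_, _⟩ ⟨⟨y, hy, rfl⟩, ⟨y', hy', rfl⟩⟩
      exact hmem n (y, y') (hCD ⟨hy, hy'⟩)
  · intro n x hx
    induction n with
    | zero => rfl
    | succ n ih =>
      rw [hs, hs', Function.iterate_succ_apply', ← ih]
      exact hw _ (hmem n x hx)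

end pow

section affine

variable {k : Type*} [NormedField k]

/-- The affine map `x ↦ α x + β`. -/
def aff (α β x : k) : k := α * x + β

lemma aff_iterate (α β : k) (hα : α ≠ 1) (n : ℕ) (x : k) :
    (aff α β)^[n] x - β / (1 - α) = α ^ n * (x - β / (1 - α)) := by
  have h1 : (1 - α) ≠ 0 := sub_ne_zero.2 (Ne.symm hα)
  induction n with
  | zero => simp
  | succ n ih =>
    rw [Function.iterate_succ_apply', aff, pow_succ']
    have h2 : β = β / (1 - α) * (1 - α) := by field_simp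
    calc α * (aff α β)^[n] x + β - β / (1 - α)
        = α * ((aff α β)^[n] x - β / (1 - α)) + (β - β / (1 - α) * (1 - α)) := by ring
      _ = α * (α ^ n * (x - β / (1 - α))) + 0 := by rw [ih, ← h2, sub_self]
      _ = α * α ^ n * (x - β / (1 - α)) := by ring

/-- The annulus around `x₀` through `x`. -/
def ann (α x₀ x : k) : Set k :=
  {y | Real.sqrt ‖α‖ * ‖x - x₀‖ < ‖y - x₀‖ ∧ Real.sqrt ‖α‖ * ‖y - x₀‖ < ‖x - x₀‖}

lemma isOpen_ann (α x₀ x : k) : IsOpen (ann α x₀ x) := by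
  have h1 : Continuous fun y : k => ‖y - x₀‖ := (continuous_id.sub continuous_const).norm
  exact (isOpen_lt continuous_const h1).inter (isOpen_lt (continuous_const.mul h1)
    continuous_const)

lemma mem_ann {α x₀ x : k} (hα : ‖α‖ < 1) (hx : x ≠ x₀) : x ∈ ann α x₀ x := by
  have h1 : Real.sqrt ‖α‖ < 1 := by
    rw [show (1 : ℝ) = Real.sqrt 1 by rw [Real.sqrt_one]]
    exact Real.sqrt_lt_sqrt (norm_nonneg _) hα
  have h2 : 0 < ‖x - x₀‖ := norm_pos_iff.2 (sub_ne_zero.2 hx)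
  have h3 : Real.sqrt ‖α‖ * ‖x - x₀‖ < ‖x - x₀‖ := by nlinarith
  exact ⟨h3, h3⟩

lemma disj_ann {α β x : k} (hα0 : α ≠ 0) (hα : ‖α‖ < 1) (hx : x ≠ β / (1 - α)) (n m : ℕ)
    (hnm : n ≠ m) : Disjoint ((aff α β)^[n] '' ann α (β / (1 - α)) x)
      ((aff α β)^[m] '' ann α (β / (1 - α)) x) := by
  wlog hlt : n < m generalizing n m
  · exact (this m n hnm.symm (lt_of_le_of_ne (not_lt.1 hlt) hnm.symm)).symm
  have hα1 : α ≠ 1 := by
    rintro rfl
    rw [norm_one] at hα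
    exact lt_irrefl _ hα
  rw [Set.disjoint_left]
  rintro _ ⟨y, hy, rfl⟩ ⟨z, hz, hzy⟩
  have e1 := aff_iterate α β hα1 n y
  have e2 := aff_iterate α β hα1 m z
  rw [hzy, e1] at e2
  set x₀ := β / (1 - α) with hx₀
  have hr : 0 < ‖α‖ := norm_pos_iff.2 hα0
  set r := Real.sqrt ‖α‖ with hrr
  have hr2 : r * r = ‖α‖ := Real.mul_self_sqrt (norm_nonneg _)
  have hrp : 0 < r := Real.sqrt_pos.2 hr
  have h3 : ‖y - x₀‖ = ‖α‖ ^ (m - n) * ‖z - x₀‖ := by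
    have h4 : ‖α‖ ^ n * ‖y - x₀‖ = ‖α‖ ^ m * ‖z - x₀‖ := by
      rw [← norm_pow, ← norm_mul, e2, norm_mul, norm_pow]
    have h5 : ‖α‖ ^ m = ‖α‖ ^ n * ‖α‖ ^ (m - n) := by
      rw [← pow_add, Nat.add_sub_cancel' hlt.le]
    rw [h5, mul_assoc] at h4
    exact mul_left_cancel₀ (pow_ne_zero n hr.ne') h4
  have h6 : ‖α‖ ^ (m - n) ≤ ‖α‖ := by
    have : ‖α‖ ^ (m - n) ≤ ‖α‖ ^ 1 := pow_le_pow_of_le_one hr.le hα.le (by omega)
    rwa [pow_one] at this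
  have h7 : ‖y - x₀‖ ≤ ‖α‖ * ‖z - x₀‖ := by
    rw [h3]
    exact mul_le_mul_of_nonneg_right h6 (norm_nonneg _)
  have h8 := hy.1
  have h9 := hz.2
  -- r * ρ < |y| ≤ r * r * |z| < r * ρ
  have h10 : r * r * ‖z - x₀‖ < r * ‖x - x₀‖ := by
    rw [mul_assoc]
    exact mul_lt_mul_of_pos_left h9 hrp
  rw [hr2] at h10
  linarith

/-- Two hyperbolic elements with different second fixed points. -/
theorem exists_disj {P : Type*} [TopologicalSpace P] {e : k → P} (he : IsOpenEmbedding e)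
    {α β b : k} (hα0 : α ≠ 0) (hα : ‖α‖ < 1) (hb : b ≠ 0) {s v : P → P}
    (hs : ∀ x, s (e x) = e (aff α β x)) (hsv : ∀ x, v (e x) = e (aff α (β + b * (1 - α)) x))
    (x : k) : ∃ V ∈ 𝓝 (e x), (∀ n m, n ≠ m → Disjoint (s^[n] '' V) (s^[m] '' V)) ∨
      (∀ n m, n ≠ m → Disjoint (v^[n] '' V) (v^[m] '' V)) := by
  have hα1 : 1 - α ≠ 0 := by
    rw [sub_ne_zero]
    rintro rfl
    rw [norm_one] at hα
    exact lt_irrefl _ hα
  have hit : ∀ (w : P → P) (γ : k), (∀ x, w (e x) = e (aff α γ x)) → ∀ n x,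
      w^[n] (e x) = e ((aff α γ)^[n] x) := by
    intro w γ hw n
    induction n with
    | zero => intro x; rfl
    | succ n ih =>
      intro x
      rw [Function.iterate_succ_apply, hw, ih, ← Function.iterate_succ_apply]
  have key : ∀ (w : P → P) (γ : k), (∀ x, w (e x) = e (aff α γ x)) → x ≠ γ / (1 - α) →
      ∃ V ∈ 𝓝 (e x), ∀ n m, n ≠ m → Disjoint (w^[n] '' V) (w^[m] '' V) := by
    intro w γ hw hx
    refine ⟨e '' ann α (γ / (1 - α)) x, ?_, ?_⟩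
    · exact (he.isOpenMap _ (isOpen_ann _ _ _)).mem_nhds ⟨x, mem_ann hα hx, rfl⟩
    · intro n m hnm
      have h1 : ∀ n, w^[n] '' (e '' ann α (γ / (1 - α)) x) =
          e '' ((aff α γ)^[n] '' ann α (γ / (1 - α)) x) := by
        intro n
        rw [Set.image_image, Set.image_image]
        exact Set.image_congr fun y _ => hit w γ hw n y
      rw [h1, h1]
      exact (Set.disjoint_image_iff he.injective).2 (disj_ann hα0 hα hx n m hnm)
  by_cases hx : x = β / (1 - α)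
  · have hx2 : x ≠ (β + b * (1 - α)) / (1 - α) := by
      rw [hx]
      intro h
      rw [div_left_inj' hα1] at h
      exact mul_ne_zero hb hα1 (by linear_combination -h)
    obtain ⟨V, hV, h⟩ := key v _ hsv hx2
    exact ⟨V, hV, Or.inr h⟩
  · obtain ⟨V, hV, h⟩ := key s _ hs hx
    exact ⟨V, hV, Or.inl h⟩

end affine

section two

variable {Z Z' Γ P P' : Type*} [TopologicalSpace Z] [TopologicalSpace Z'] [T2Space Z] [T2Space Z']
  [Group Γ] [MulAction Γ Z] [MulAction Γ Z'] [ContinuousConstSMul Γ Z] [ContinuousConstSMul Γ Z']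
  [TopologicalSpace P] [TopologicalSpace P'] {D : Set (Z × Z')} {M : Set Z → Set Z' → ℝ}

/-- Every value `≠ q` of the first coordinate of `Φ` is moved to infinitely many disjoint places by
homeomorphisms of `Z`. -/
def MovL (Γ : Type*) [Group Γ] [MulAction Γ Z] (D : Set (Z × Z')) (M : Set Z → Set Z' → ℝ)
    (Φ : Z × Z' → P × P') (q : P) : Prop :=
  ∀ p, p ≠ q → ∃ V ∈ 𝓝 p, ∃ (T : Z ≃ₜ Z) (w : P → P), (∀ (g : Γ) z, T (g • z) = g • T z) ∧
    (∀ x, x ∈ D → (T x.1, x.2) ∈ D) ∧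
    (∀ C C', CO C → CO C' → C ×ˢ C' ⊆ D → M (T '' C) C' = M C C') ∧
    (∀ x, x ∈ D → Φ (T x.1, x.2) = (w (Φ x).1, (Φ x).2)) ∧
    ∀ n m, n ≠ m → Disjoint (w^[n] '' V) (w^[m] '' V)

/-- The same for the second coordinate. -/
def MovR (Γ : Type*) [Group Γ] [MulAction Γ Z'] (D : Set (Z × Z')) (M : Set Z → Set Z' → ℝ)
    (Φ : Z × Z' → P × P') (q : P') : Prop :=
  ∀ p, p ≠ q → ∃ V ∈ 𝓝 p, ∃ (T : Z' ≃ₜ Z') (w : P' → P'), (∀ (g : Γ) z, T (g • z) = g • T z) ∧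
    (∀ x, x ∈ D → (x.1, T x.2) ∈ D) ∧
    (∀ C C', CO C → CO C' → C ×ˢ C' ⊆ D → M C (T '' C') = M C C') ∧
    (∀ x, x ∈ D → Φ (x.1, T x.2) = ((Φ x).1, w (Φ x).2)) ∧
    ∀ n m, n ≠ m → Disjoint (w^[n] '' V) (w^[m] '' V)

/-- [C-REC] with two coordinates. -/
theorem rec_two (hM : BiM D M) (hDo : IsOpen D)
    (hbZ : ∀ z, ∀ O ∈ 𝓝 z, ∃ A : Set Z, CO A ∧ z ∈ A ∧ A ⊆ O)
    (hbZ' : ∀ z, ∀ O ∈ 𝓝 z, ∃ A : Set Z', CO A ∧ z ∈ A ∧ A ⊆ O)
    (inv : ∀ (g : Γ) C C', CO C → CO C' → C ×ˢ C' ⊆ D → M (g • C) (g • C') = M C C')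
    {J : Type*} [Fintype J] (K : J → Set Z) (K' : J → Set Z') (hK : ∀ j, CO (K j))
    (hK' : ∀ j, CO (K' j)) (hKD : ∀ j, K j ×ˢ K' j ⊆ D)
    (hcov : ∀ x ∈ D, ∃ (g : Γ) (j : J), (g • x.1, g • x.2) ∈ K j ×ˢ K' j)
    (hw : ∀ x ∈ D, ∃ W ∈ 𝓝 x, ∀ (g : Γ) y, y ∈ W → (g • y.1, g • y.2) ∈ W →
      (g • y.1, g • y.2) = y)
    (Φ : Z × Z' → P × P') (hΦc : ContinuousOn Φ D)
    (hΦ : ∀ (g : Γ) x, x ∈ D → Φ (g • x.1, g • x.2) = Φ x) (q : P) (q' : P')
    (hL : MovL Γ D M Φ q) (hR : MovR Γ D M Φ q')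
    {C : Set Z} {C' : Set Z'} (hC : CO C) (hC' : CO C') (hCD : C ×ˢ C' ⊆ D)
    (hCq : ∀ x ∈ C ×ˢ C', Φ x ≠ (q, q')) : M C C' = 0 := by
  refine rec_main hM hDo hbZ hbZ' inv K K' hK hK' hKD hcov hw Φ hΦc hΦ (q, q') ?_ hC hC' hCD hCq
  intro x hx hne
  by_cases h1 : (Φ x).1 = q
  · have h2 : (Φ x).2 ≠ q' := fun h => hne (Prod.ext h1 h)
    obtain ⟨V, hV, T, w, hT, hTD, hTM, hTΦ, hd⟩ := hR _ h2
    refine ⟨Set.univ ×ˢ V, prod_mem_nhds Filter.univ_mem hV, ⟨RecD.ofPow (Homeomorph.refl Z) T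
      (Prod.map id w) (fun g z => rfl) hT hTD ?_ hTΦ ?_⟩⟩
    · intro C C' hC hC' hCD
      have : (Homeomorph.refl Z) '' C = C := Set.image_id C
      rw [this]
      exact hTM C C' hC hC' hCD
    · intro n m hnm
      rw [Set.disjoint_left]
      rintro _ ⟨y, hy, rfl⟩ ⟨z, hz, hzy⟩
      rw [Prod.map_iterate, Prod.map_iterate] at hzy
      have h3 : w^[m] z.2 = w^[n] y.2 := congrArg Prod.snd hzy
      exact Set.disjoint_left.1 (hd n m hnm) ⟨y.2, hy.2, rfl⟩ ⟨z.2, hz.2, h3⟩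
  · obtain ⟨V, hV, T, w, hT, hTD, hTM, hTΦ, hd⟩ := hL _ h1
    refine ⟨V ×ˢ Set.univ, prod_mem_nhds hV Filter.univ_mem, ⟨RecD.ofPow T (Homeomorph.refl Z')
      (Prod.map w id) hT (fun g z => rfl) hTD ?_ hTΦ ?_⟩⟩
    · intro C C' hC hC' hCD
      have : (Homeomorph.refl Z') '' C' = C' := Set.image_id C'
      rw [this]
      exact hTM C C' hC hC' hCD
    · intro n m hnm
      rw [Set.disjoint_left]
      rintro _ ⟨y, hy, rfl⟩ ⟨z, hz, hzy⟩
      rw [Prod.map_iterate, Prod.map_iterate] at hzy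
      have h3 : w^[m] z.1 = w^[n] y.1 := congrArg Prod.fst hzy
      exact Set.disjoint_left.1 (hd n m hnm) ⟨y.1, hy.1, rfl⟩ ⟨z.1, hz.1, h3⟩

end two

end Vale.Agent.P092.H684
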