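import Vale.Agent.P092.RC.Defs
import Vale.Agent.P092.H684.Rec2

/-!
P092, Team C, [C-LINE], step (2a): the trace of `Q'(C') Q(C)` as a bi-additive function.
-/

set_option linter.all false

open scoped InnerProductSpace ENNReal
open Filter Topology ContinuousLinearMap MeasureTheory TopologicalSpace

namespace Vale.Agent.P092.H684

open Vale.Agent.P092.RC
open Vale.Agent.P092.H820 (Cpv)

section trn

variable {G Γ K : Type} [Group G] [TopologicalSpace G] [Group Γ] [NormedAddCommGroup K]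
  [InnerProductSpace ℂ K] [CompleteSpace K] {π : G →* (K →L[ℂ] K)} {lam : Γ →* (K →L[ℂ] K)}
  {W : Set (K →L[ℂ] K)} {Ω : K}

lemma Cm.mul {S T : K →L[ℂ] K} (hS : Cm W S) (hT : Cm W T) : Cm W (S * T) := by
  intro w hw
  rw [mul_assoc, hT w hw, ← mul_assoc, hS w hw, mul_assoc]

lemma Cm.add {S T : K →L[ℂ] K} (hS : Cm W S) (hT : Cm W T) : Cm W (S + T) := by
  intro w hw
  rw [add_mul, mul_add, hS w hw, hT w hw]

lemma Cm.mono {W' : Set (K →L[ℂ] K)} (h : W ⊆ W') {T : K →L[ℂ] K} (hT : Cm W' T) : Cm W T :=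
  fun w hw => hT w (h hw)

lemma pi_inv_mul (π : G →* (K →L[ℂ] K)) (g : G) : π g⁻¹ * π g = 1 := by
  rw [← map_mul, inv_mul_cancel, map_one]

lemma pi_mul_inv (π : G →* (K →L[ℂ] K)) (g : G) : π g * π g⁻¹ = 1 := by
  rw [← map_mul, mul_inv_cancel, map_one]

lemma Pic.cm_conj (hp : Pic π lam W Ω) {T : K →L[ℂ] K} (hT : Cm W T) (g : G) :
    Cm W (π g * T * π g⁻¹) := by
  intro w hw
  have h1 := hp.WP w hw g⁻¹
  rw [inv_inv] at h1
  have h2 := hT _ h1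
  -- T (π g⁻¹ w π g) = (π g⁻¹ w π g) T
  calc π g * T * π g⁻¹ * w = π g * T * π g⁻¹ * w * (π g * π g⁻¹) := by
        rw [pi_mul_inv, mul_one]
    _ = π g * (T * (π g⁻¹ * w * π g)) * π g⁻¹ := by simp only [mul_assoc]
    _ = π g * (π g⁻¹ * w * π g * T) * π g⁻¹ := by rw [h2]
    _ = (π g * π g⁻¹) * w * (π g * T * π g⁻¹) := by simp only [mul_assoc]
    _ = w * (π g * T * π g⁻¹) := by rw [pi_mul_inv, one_mul]

lemma norm_of_adj {H : Type} [Group H] {u : H →* (K →L[ℂ] K)}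
    (h : ∀ g, adjoint (u g) = u g⁻¹) (g : H) (ξ : K) : ‖u g ξ‖ = ‖ξ‖ := by
  have h1 : ⟪u g ξ, u g ξ⟫_ℂ = ⟪ξ, ξ⟫_ℂ := by
    have e : u g⁻¹ * u g = 1 := by rw [← map_mul, inv_mul_cancel, map_one]
    rw [← adjoint_inner_right, h]
    show ⟪ξ, (u g⁻¹ * u g) ξ⟫_ℂ = _
    rw [e]
    rfl
  rw [inner_self_eq_norm_sq_to_K, inner_self_eq_norm_sq_to_K] at h1
  have h2 : ‖u g ξ‖ ^ 2 = ‖ξ‖ ^ 2 := by exact_mod_cast h1
  exact (sq_eq_sq₀ (norm_nonneg _) (norm_nonneg _)).1 h2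

lemma enorm_add_sq {u v : K} (h : ⟪u, v⟫_ℂ = 0) : ‖u + v‖ₑ ^ 2 = ‖u‖ₑ ^ 2 + ‖v‖ₑ ^ 2 := by
  have h1 : ‖u + v‖ ^ 2 = ‖u‖ ^ 2 + ‖v‖ ^ 2 := by
    have := norm_add_sq_eq_norm_sq_add_norm_sq_of_inner_eq_zero u v h
    rw [sq, sq, sq]
    exact this
  rw [← ofReal_norm, ← ofReal_norm, ← ofReal_norm, ← ENNReal.ofReal_pow (norm_nonneg _),
    ← ENNReal.ofReal_pow (norm_nonneg _), ← ENNReal.ofReal_pow (norm_nonneg _), h1,
    ENNReal.ofReal_add (by positivity) (by positivity)]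

/-- additivity of the trace in the first factor -/
lemma trn_add_left {A B S : K →L[ℂ] K} (hA : adjoint A = A) (hAB : A * B = 0) :
    TRN lam Ω ((A + B) * S) = TRN lam Ω (A * S) + TRN lam Ω (B * S) := by
  rw [TRN, TRN, TRN, ← ENNReal.tsum_add]
  refine tsum_congr fun γ => ?_
  have h1 : ⟪(A * S) (lam γ Ω), (B * S) (lam γ Ω)⟫_ℂ = 0 := by
    show ⟪A (S (lam γ Ω)), B (S (lam γ Ω))⟫_ℂ = 0
    rw [← adjoint_inner_right, hA]
    show ⟪S (lam γ Ω), (A * B) (S (lam γ Ω))⟫_ℂ = 0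
    rw [hAB]
    simp
  rw [← enorm_add_sq h1, add_mul]
  rfl

/-- additivity of the trace in the second factor -/
lemma trn_add_right (hp : Pic π lam W Ω) {A B S : K →L[ℂ] K} (hS : Cm W S) (hAW : Cm W A)
    (hBW : Cm W B) (hA : adjoint A = A) (hB : adjoint B = B) (hAB : A * B = 0) :
    TRN lam Ω (S * (A + B)) = TRN lam Ω (S * A) + TRN lam Ω (S * B) := by
  have e : ∀ T, adjoint (S * T) = adjoint T * adjoint S := fun T => by
    rw [← star_eq_adjoint, ← star_eq_adjoint, ← star_eq_adjoint, star_mul]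
  rw [← hp.tr_adj _ (Cm.mul hS (Cm.add hAW hBW)), ← hp.tr_adj _ (Cm.mul hS hAW),
    ← hp.tr_adj _ (Cm.mul hS hBW), e, e, e, map_add, hA, hB]
  exact trn_add_left hA hAB

lemma trn_lam (hp : Pic π lam W Ω) (T : K →L[ℂ] K) (γ : Γ) :
    TRN lam Ω (lam γ * T * lam γ⁻¹) = TRN lam Ω T := by
  rw [TRN, TRN, ← (Equiv.mulLeft γ).tsum_eq]
  refine tsum_congr fun γ' => ?_
  have h1 : (lam γ * T * lam γ⁻¹) (lam ((Equiv.mulLeft γ) γ') Ω) = lam γ (T (lam γ' Ω)) := by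
    have h2 : lam γ⁻¹ (lam (γ * γ') Ω) = lam γ' Ω := by
      rw [← ContinuousLinearMap.mul_apply, ← map_mul, inv_mul_cancel_left]
    rw [ContinuousLinearMap.mul_apply, ContinuousLinearMap.mul_apply, Equiv.coe_mulLeft, h2]
  rw [h1, ← ofReal_norm, norm_of_adj hp.adjL, ofReal_norm]

end trn

section zf

variable {G Γ Y G₀ K : Type} [Group G] [TopologicalSpace G] [Group Γ] [TopologicalSpace Y]
  [MulAction G Y] [ContinuousConstSMul G Y] [Group G₀] [TopologicalSpace G₀]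
  [NormedAddCommGroup K] [InnerProductSpace ℂ K] [CompleteSpace K]
  {π : G →* (K →L[ℂ] K)} {lam : Γ →* (K →L[ℂ] K)} {W W' : Set (K →L[ℂ] K)} {Ω : K}
  {q : Γ →* G} {c : G → Y → G₀} {y₀ : Y} {E : Clopens Y → (K →L[ℂ] K)} {δ : G → G₀}
  {Q : Set (Y × G₀) → (K →L[ℂ] K)}

/-- pairs with different base points -/
def DD (Y G₀ : Type) : Set ((Y × G₀) × (Y × G₀)) := {x | x.1.1 ≠ x.2.1}

/-- the family at the point `g y₀` -/
noncomputable def Qg (π : G →* (K →L[ℂ] K)) (Q : Set (Y × G₀) → (K →L[ℂ] K)) (g : G)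
    (C : Set (Y × G₀)) : K →L[ℂ] K := π g * Q C * π g⁻¹

/-- the bi-additive function -/
noncomputable def MM (π : G →* (K →L[ℂ] K)) (lam : Γ →* (K →L[ℂ] K)) (Ω : K)
    (Q : Set (Y × G₀) → (K →L[ℂ] K)) (g : G) (C C' : Set (Y × G₀)) : ℝ :=
  (TRN lam Ω (Qg π Q g C' * Q C)).toReal

lemma ZFam.empty (hz : ZFam π lam W' Ω q c y₀ E δ Q) : Q ∅ = 0 := by
  have h := hz.add ∅ ∅ CO.empty CO.empty (Set.disjoint_empty _)
  rw [Set.union_empty] at h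
  exact left_eq_add.1 h

lemma ZFam.disj (hz : ZFam π lam W' Ω q c y₀ E δ Q) {A B : Set (Y × G₀)} (hA : CO A) (hB : CO B)
    (h : Disjoint A B) : Q A * Q B = 0 := by
  rw [hz.mul A B hA hB, h.inter_eq, ZFam.empty hz]

lemma Qg_adj (hp : Pic π lam W Ω) (hz : ZFam π lam W' Ω q c y₀ E δ Q) (g : G) {C : Set (Y × G₀)}
    (hC : CO C) : adjoint (Qg π Q g C) = Qg π Q g C := by
  have e : ∀ S T : K →L[ℂ] K, adjoint (S * T) = adjoint T * adjoint S := fun S T => by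
    rw [← star_eq_adjoint, ← star_eq_adjoint, ← star_eq_adjoint, star_mul]
  rw [Qg, e, e, hp.adjP, hp.adjP, hz.adj C hC, inv_inv, ← mul_assoc]

lemma Qg_cm (hp : Pic π lam W Ω) (hWW : W ⊆ W') (hz : ZFam π lam W' Ω q c y₀ E δ Q) (g : G)
    {C : Set (Y × G₀)} (hC : CO C) : Cm W (Qg π Q g C) :=
  Pic.cm_conj hp (Cm.mono hWW (hz.cm C hC)) g

lemma Qg_mul (π : G →* (K →L[ℂ] K)) (Q : Set (Y × G₀) → (K →L[ℂ] K)) (g : G)
    (A B : Set (Y × G₀)) : Qg π Q g A * Qg π Q g B = π g * (Q A * Q B) * π g⁻¹ := by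
  rw [Qg, Qg]
  calc π g * Q A * π g⁻¹ * (π g * Q B * π g⁻¹) = π g * Q A * (π g⁻¹ * π g) * Q B * π g⁻¹ := by
        simp only [mul_assoc]
    _ = π g * (Q A * Q B) * π g⁻¹ := by rw [pi_inv_mul, mul_one]; simp only [mul_assoc]

lemma Qg_add (hz : ZFam π lam W' Ω q c y₀ E δ Q) (g : G) {A B : Set (Y × G₀)} (hA : CO A)
    (hB : CO B) (h : Disjoint A B) : Qg π Q g (A ∪ B) = Qg π Q g A + Qg π Q g B := by
  rw [Qg, Qg, Qg, hz.add A B hA hB h, mul_add, add_mul]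

lemma Qg_disj (hz : ZFam π lam W' Ω q c y₀ E δ Q) (g : G) {A B : Set (Y × G₀)} (hA : CO A)
    (hB : CO B) (h : Disjoint A B) : Qg π Q g A * Qg π Q g B = 0 := by
  rw [Qg_mul, ZFam.disj hz hA hB h, mul_zero, zero_mul]

lemma disj_of_DD {C C' : Set (Y × G₀)} (h : C ×ˢ C' ⊆ DD Y G₀) :
    Disjoint (Prod.fst '' C') (Prod.fst '' C) := by
  rw [Set.disjoint_left]
  rintro _ ⟨z', hz', rfl⟩ ⟨z, hz, hzz⟩
  exact h (a := (z, z')) ⟨hz, hz'⟩ hzz

lemma MM_fin (hz : ZFam π lam W' Ω q c y₀ E δ Q) {g : G} (hg : g • y₀ ≠ y₀)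
    {C C' : Set (Y × G₀)} (hC : CO C) (hC' : CO C') (h : C ×ˢ C' ⊆ DD Y G₀) :
    TRN lam Ω (Qg π Q g C' * Q C) ≠ ∞ :=
  (hz.tb g hg C C' hC hC' (disj_of_DD h).symm).ne

theorem biM (hp : Pic π lam W Ω) (hWW : W ⊆ W') (hz : ZFam π lam W' Ω q c y₀ E δ Q) {g : G}
    (hg : g • y₀ ≠ y₀) : BiM (DD Y G₀) (MM π lam Ω Q g) where
  nonneg := fun C C' _ _ _ => ENNReal.toReal_nonneg
  addL := by
    intro A B C' hA hB hC' hD hAB
    have hcm : ∀ C, CO C → Cm W (Q C) := fun C hC => Cm.mono hWW (hz.cm C hC)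
    have h1 : A ×ˢ C' ⊆ DD Y G₀ :=
      (Set.prod_mono Set.subset_union_left (subset_refl _)).trans hD
    have h2 : B ×ˢ C' ⊆ DD Y G₀ :=
      (Set.prod_mono Set.subset_union_right (subset_refl _)).trans hD
    rw [MM, MM, MM, ← ENNReal.toReal_add (MM_fin hz hg hA hC' h1) (MM_fin hz hg hB hC' h2),
      hz.add A B hA hB hAB, trn_add_right hp (Qg_cm hp hWW hz g hC') (hcm _ hA) (hcm _ hB)
        (hz.adj A hA) (hz.adj B hB) (ZFam.disj hz hA hB hAB)]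
  addR := by
    intro C A B hC hA hB hD hAB
    have h1 : C ×ˢ A ⊆ DD Y G₀ :=
      (Set.prod_mono (subset_refl _) Set.subset_union_left).trans hD
    have h2 : C ×ˢ B ⊆ DD Y G₀ :=
      (Set.prod_mono (subset_refl _) Set.subset_union_right).trans hD
    rw [MM, MM, MM, ← ENNReal.toReal_add (MM_fin hz hg hC hA h1) (MM_fin hz hg hC hB h2),
      Qg_add hz g hA hB hAB, trn_add_left (Qg_adj hp hz g hA) (Qg_disj hz g hA hB hAB)]

/-- `M = 0` means that the product is zero. -/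
theorem eq_zero_of_MM (hp : Pic π lam W Ω) (hWW : W ⊆ W') (hz : ZFam π lam W' Ω q c y₀ E δ Q)
    {g : G} (hg : g • y₀ ≠ y₀) {C C' : Set (Y × G₀)} (hC : CO C) (hC' : CO C')
    (hD : C ×ˢ C' ⊆ DD Y G₀) (h : MM π lam Ω Q g C C' = 0) : Qg π Q g C' * Q C = 0 := by
  have hcm : ∀ C, CO C → Cm W (Q C) := fun C hC => Cm.mono hWW (hz.cm C hC)
  refine hp.tr_zero _ (Cm.mul (Qg_cm hp hWW hz g hC') (hcm _ hC)) ?_
  rcases (ENNReal.toReal_eq_zero_iff _).1 h with h | h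
  · exact h
  · exact absurd h (MM_fin hz hg hC hC' hD)

/-- invariance under `Γ` -/
theorem MM_lam (hp : Pic π lam W Ω) (hz : ZFam π lam W' Ω q c y₀ E δ Q) (g : G) (γ : Γ)
    {C C' : Set (Y × G₀)} (hC : CO C) (hC' : CO C') :
    MM π lam Ω Q g (zact c (q γ) '' C) (zact c (q γ) '' C') = MM π lam Ω Q g C C' := by
  have e : lam γ⁻¹ * lam γ = 1 := by rw [← map_mul, inv_mul_cancel, map_one]
  rw [MM, MM, ← trn_lam hp (Qg π Q g C' * Q C) γ, ← hz.cov γ C hC, Qg, ← hz.cov γ C' hC']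
  congr 2
  have e1 : π g * lam γ = lam γ * π g := hp.comm g γ
  have e2 : lam γ⁻¹ * π g⁻¹ = π g⁻¹ * lam γ⁻¹ := (hp.comm g⁻¹ γ⁻¹).symm
  calc π g * (lam γ * Q C' * lam γ⁻¹) * π g⁻¹ * (lam γ * Q C * lam γ⁻¹)
      = (π g * lam γ) * Q C' * (lam γ⁻¹ * π g⁻¹) * lam γ * Q C * lam γ⁻¹ := by
        simp only [mul_assoc]
    _ = lam γ * π g * Q C' * π g⁻¹ * (lam γ⁻¹ * lam γ) * Q C * lam γ⁻¹ := by
        rw [e1, e2]; simp only [mul_assoc]
    _ = lam γ * (Qg π Q g C' * Q C) * lam γ⁻¹ := by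
        rw [e, mul_one, Qg]; simp only [mul_assoc]

/-- invariance under the stabiliser of the two source points -/
theorem MM_par (hp : Pic π lam W Ω) (hWW : W ⊆ W') (hz : ZFam π lam W' Ω q c y₀ E δ Q) (g p : G)
    (h1 : p • y₀ = y₀) (h2 : p • g • y₀ = g • y₀) {C C' : Set (Y × G₀)} (hC : CO C)
    (hC' : CO C') :
    MM π lam Ω Q g ((fun z => zr z (δ p)⁻¹) '' C) ((fun z => zr z (δ (g⁻¹ * p * g))⁻¹) '' C') =
      MM π lam Ω Q g C C' := by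
  have hcm : ∀ C, CO C → Cm W (Q C) := fun C hC => Cm.mono hWW (hz.cm C hC)
  have h3 : (g⁻¹ * p * g) • y₀ = y₀ := by
    rw [mul_smul, mul_smul, h2, inv_smul_smul]
  rw [MM, MM, ← hp.tr_conj _ (Cm.mul (Qg_cm hp hWW hz g hC') (hcm _ hC)) p,
    ← hz.par p h1 C hC, Qg, ← hz.par _ h3 C' hC']
  congr 2
  have e : π p⁻¹ * π p = 1 := pi_inv_mul π p
  have e1 : π g * π (g⁻¹ * p * g) = π p * π g := by
    rw [← map_mul, ← map_mul]
    congr 1
    group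
  have e2 : π (g⁻¹ * p * g)⁻¹ * π g⁻¹ = π g⁻¹ * π p⁻¹ := by
    rw [← map_mul, ← map_mul]
    congr 1
    group
  calc π g * (π (g⁻¹ * p * g) * Q C' * π (g⁻¹ * p * g)⁻¹) * π g⁻¹ * (π p * Q C * π p⁻¹)
      = (π g * π (g⁻¹ * p * g)) * Q C' * (π (g⁻¹ * p * g)⁻¹ * π g⁻¹) * π p * Q C * π p⁻¹ := by
        simp only [mul_assoc]
    _ = π p * π g * Q C' * π g⁻¹ * (π p⁻¹ * π p) * Q C * π p⁻¹ := by
        rw [e1, e2]; simp only [mul_assoc]
    _ = π p * (Qg π Q g C' * Q C) * π p⁻¹ := by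
        rw [e, mul_one, Qg]; simp only [mul_assoc]

end zf

end Vale.Agent.P092.H684
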