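import Vale.Agent.P092.H575.Uni
import Vale.Agent.P092.H584.FD
import Vale.Agent.P092.RC.Cc

/-!
P092, Team C, [C-LINE]: `SL_n(k)`, `k` a non-archimedean local field of characteristic zero, has a
torsion free compact open subgroup; lattices are cocompact.
-/

set_option linter.all false

open Matrix Topology

namespace Vale.Agent.P092.H684

open Vale.Agent.P092.H575 (Cl isOpen_cl isCompact_cl cl_pow exists_prime)

section top

variable {k : Type} [NontriviallyNormedField k] {n : Type} [Fintype n] [DecidableEq n]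

lemma sl_ce : IsClosedEmbedding fun g : SpecialLinearGroup n k => (g : Matrix n n k) := by
  have hc : IsClosed {A : Matrix n n k | A.det = 1} :=
    isClosed_eq continuous_id.matrix_det continuous_const
  exact hc.isClosedEmbedding_subtypeVal

theorem sl_lc [ProperSpace k] : LocallyCompactSpace (SpecialLinearGroup n k) := by
  haveI : LocallyCompactSpace (Matrix n n k) :=
    inferInstanceAs (LocallyCompactSpace (n → n → k))
  exact sl_ce.locallyCompactSpace

theorem sl_sc [ProperSpace k] : SecondCountableTopology (SpecialLinearGroup n k) := by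
  haveI : SecondCountableTopology k := secondCountable_of_proper
  haveI : SecondCountableTopology (Matrix n n k) :=
    inferInstanceAs (SecondCountableTopology (n → n → k))
  exact sl_ce.isEmbedding.secondCountableTopology

theorem sl_t2 : T2Space (SpecialLinearGroup n k) := by
  haveI : T2Space (Matrix n n k) := inferInstanceAs (T2Space (n → n → k))
  exact sl_ce.isEmbedding.t2Space

/-- bounded sets are relatively compact -/
theorem sl_bdd [ProperSpace k] (r : ℝ) :
    IsCompact {g : SpecialLinearGroup n k | ∀ i j, ‖g.1 i j‖ ≤ r} := by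
  have h1 : IsCompact {A : Matrix n n k | ∀ i j, ‖A i j‖ ≤ r} := by
    have h2 : {A : Matrix n n k | ∀ i j, ‖A i j‖ ≤ r} =
        Set.univ.pi fun _ : n => Set.univ.pi fun _ : n => Metric.closedBall (0 : k) r := by
      ext A
      exact ⟨fun h i _ j _ => mem_closedBall_zero_iff.2 (h i j),
        fun h i j => mem_closedBall_zero_iff.1 (h i trivial j trivial)⟩
    rw [h2]
    exact isCompact_univ_pi fun _ => isCompact_univ_pi fun _ => isCompact_closedBall _ _
  exact sl_ce.isCompact_preimage h1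

variable [IsUltrametricDist k]

/-- the congruence subgroup -/
noncomputable def UU (k : Type) [NontriviallyNormedField k] [IsUltrametricDist k] (n : Type)
    [Fintype n] [DecidableEq n] (p : ℕ) : Subgroup (SpecialLinearGroup n k) :=
  (H575.Kc p k n 0).comap (SpecialLinearGroup.toGL : SpecialLinearGroup n k →* _)

lemma mem_UU {p : ℕ} (hp1 : ‖(p : k)‖ < 1) {g : SpecialLinearGroup n k} :
    g ∈ UU k n p ↔ Cl (g.1 - 1) (‖(p : k)‖ ^ 2) := by
  rw [UU, Subgroup.mem_comap, H575.mem_Kc hp1]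
  rfl

theorem UU_open {p : ℕ} (hp0 : (p : k) ≠ 0) (hp1 : ‖(p : k)‖ < 1) :
    IsOpen (UU k n p : Set (SpecialLinearGroup n k)) := by
  have h1 : (UU k n p : Set (SpecialLinearGroup n k)) =
      (fun g : SpecialLinearGroup n k => g.1 - 1) ⁻¹' {A | Cl A (‖(p : k)‖ ^ 2)} := by
    ext g
    exact mem_UU hp1
  rw [h1]
  refine (isOpen_cl (pow_ne_zero _ (norm_ne_zero_iff.2 hp0))).preimage ?_
  exact (sl_ce.continuous).sub continuous_const

theorem UU_compact [ProperSpace k] {p : ℕ} (hp1 : ‖(p : k)‖ < 1) :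
    IsCompact (UU k n p : Set (SpecialLinearGroup n k)) := by
  have h1 : (UU k n p : Set (SpecialLinearGroup n k)) =
      (fun g : SpecialLinearGroup n k => g.1) ⁻¹'
        ((Homeomorph.subRight (1 : Matrix n n k)) ⁻¹' {A | Cl A (‖(p : k)‖ ^ 2)}) := by
    ext g
    exact mem_UU hp1
  rw [h1]
  refine sl_ce.isCompact_preimage ?_
  exact (Homeomorph.subRight (1 : Matrix n n k)).isClosedEmbedding.isCompact_preimage isCompact_cl

lemma norm_prime {p l : ℕ} (hp : p.Prime) (hl : l.Prime) (hp1 : ‖(p : k)‖ < 1) (h : l ≠ p) :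
    ‖(l : k)‖ = 1 := by
  refine le_antisymm (IsUltrametricDist.norm_natCast_le_one k l) ?_
  by_contra hlt
  rw [not_le] at hlt
  have hc : IsCoprime (l : ℤ) (p : ℤ) :=
    Nat.isCoprime_iff_coprime.2 ((Nat.coprime_primes hl hp).2 h)
  obtain ⟨a, b, hab⟩ := hc
  have h1 : (a : k) * (l : k) + (b : k) * (p : k) = 1 := by exact_mod_cast congrArg (Int.cast : ℤ → k) hab
  have h2 := IsUltrametricDist.norm_add_le_max ((a : k) * (l : k)) ((b : k) * (p : k))
  rw [h1, norm_one, norm_mul, norm_mul] at h2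
  have ha : ‖(a : k)‖ ≤ 1 := IsUltrametricDist.norm_intCast_le_one k a
  have hb : ‖(b : k)‖ ≤ 1 := IsUltrametricDist.norm_intCast_le_one k b
  rcases le_max_iff.1 h2 with h3 | h3
  · nlinarith [norm_nonneg (l : k), norm_nonneg (a : k)]
  · nlinarith [norm_nonneg (p : k), norm_nonneg (b : k)]

theorem UU_tf {p : ℕ} (hp : p.Prime) (hp0 : (p : k) ≠ 0) (hp1 : ‖(p : k)‖ < 1) :
    H584.TF (UU k n p) := by
  intro u hu N hN0 hN
  by_contra hne
  have hfin : IsOfFinOrder u := isOfFinOrder_iff_pow_eq_one.2 ⟨N, Nat.pos_of_ne_zero hN0, hN⟩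
  have ho1 : orderOf u ≠ 1 := fun h => hne (orderOf_eq_one_iff.1 h)
  obtain ⟨l, hl, hlN⟩ := Nat.exists_prime_and_dvd ho1
  set y := u ^ (orderOf u / l) with hy
  have hyU : y ∈ UU k n p := (UU k n p).pow_mem hu _
  have hyl : y ^ l = 1 := by
    rw [hy, ← pow_mul, Nat.div_mul_cancel hlN, pow_orderOf_eq_one]
  have hy1 : y ≠ 1 := by
    intro h
    have h1 := orderOf_dvd_of_pow_eq_one (hy ▸ h : u ^ (orderOf u / l) = 1)
    have h2 : 0 < orderOf u := hfin.orderOf_pos
    have h3 : orderOf u / l < orderOf u := Nat.div_lt_self h2 hl.one_lt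
    have h4 : 0 < orderOf u / l := Nat.div_pos (Nat.le_of_dvd h2 hlN) hl.pos
    exact absurd (Nat.le_of_dvd h4 h1) (not_le.2 h3)
  set A : Matrix n n k := y.1 - 1 with hA
  have hA0 : A ≠ 0 := by
    intro h
    apply hy1
    apply Subtype.ext
    exact sub_eq_zero.1 h
  have hAc : Cl A (‖(p : k)‖ ^ 2) := (mem_UU hp1).1 hyU
  obtain ⟨i0, j0, hij⟩ : ∃ i j, A i j ≠ 0 := by
    by_contra hcon
    push Not at hcon
    exact hA0 (by ext i j; exact hcon i j)
  haveI : Nonempty (n × n) := ⟨(i0, j0)⟩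
  obtain ⟨⟨i, j⟩, hmax⟩ := Finite.exists_max fun x : n × n => ‖A x.1 x.2‖
  have hr0 : 0 < ‖A i j‖ := lt_of_lt_of_le (norm_pos_iff.2 hij) (hmax (i0, j0))
  have hAr : Cl A ‖A i j‖ := fun a b => hmax (a, b)
  have hr2 : ‖A i j‖ ≤ ‖(p : k)‖ ^ 2 := hAc i j
  have hpp : 0 < ‖(p : k)‖ := norm_pos_iff.2 hp0
  have h1 := cl_pow hr0.le (hr2.trans (pow_le_one₀ hpp.le hp1.le)) hAr l
  have h2 : (1 + A) ^ l = 1 := by
    rw [hA, add_sub_cancel]
    have := congrArg Subtype.val hyl
    simpa using this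
  rw [h2, sub_self, zero_sub] at h1
  have h3 := h1 i j
  rw [Matrix.neg_apply, norm_neg, Matrix.smul_apply, smul_eq_mul, norm_mul] at h3
  have h4 : ‖(l : k)‖ ≤ ‖A i j‖ := le_of_mul_le_mul_right h3 hr0
  have h5 : ‖(p : k)‖ ≤ ‖(l : k)‖ := by
    by_cases h : l = p
    · rw [h]
    · rw [norm_prime hp hl hp1 h]
      exact hp1.le
  nlinarith

end top

/-- lattices of `SL_n(k)` are cocompact -/
theorem cocpt {k : Type} [NontriviallyNormedField k] [ProperSpace k] [IsUltrametricDist k]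
    [CharZero k] {m : ℕ} {Γ : Type} [Group Γ] (q : Γ →* RC.GG k m) (hq : RC.Emb q) :
    ∃ K : Set (RC.GG k m), IsCompact K ∧ ∀ g, ∃ γ : Γ, q γ * g ∈ K := by
  haveI := sl_lc (k := k) (n := Fin (m + 1))
  haveI := sl_sc (k := k) (n := Fin (m + 1))
  haveI := sl_t2 (k := k) (n := Fin (m + 1))
  obtain ⟨p, hp, hp1⟩ := exists_prime k
  have hp0 : (p : k) ≠ 0 := by exact_mod_cast hp.ne_zero
  have hl : H515.IsLattice q.range := ⟨hq.lat.disc, hq.lat.covol⟩
  obtain ⟨F, hF, _⟩ := H584.exists_fin hl (UU_open (n := Fin (m + 1)) hp0 hp1) (UU_compact hp1)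
    (UU_tf hp hp0 hp1)
  refine ⟨⋃ f ∈ F, (fun u => f * u) '' (UU k (Fin (m + 1)) p : Set _), ?_, ?_⟩
  · refine F.isCompact_biUnion fun f _ => ?_
    exact (UU_compact hp1).image (continuous_const.mul continuous_id)
  · intro g
    obtain ⟨f, hf, v, ⟨γ, rfl⟩, u, hu, e⟩ := hF g
    refine ⟨γ⁻¹, Set.mem_iUnion₂.2 ⟨f, hf, u, hu, ?_⟩⟩
    simp only
    rw [e, map_inv]
    group

end Vale.Agent.P092.H684
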