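import Vale.Agent.P092.H574.DelR
import Vale.Agent.P092.H684.SlTop

/-!
P092, Team C, [C-LINE], step (2c): `SL₃(k)` acts properly on the pairs of points of `Z` with
different base points.
-/

set_option linter.all false

open Matrix Topology Projectivization
open scoped LinearAlgebra.Projectivization

namespace Vale.Agent.P092.H684

open Vale.Agent.P092.RC Vale.Agent.P092.H574

section alg

variable {k : Type} [NontriviallyNormedField k]

/-- the shape of the elements of `R` (up to scalars) -/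
def Rm (M : Matrix (Fin 3) (Fin 3) k) : Prop :=
  M 1 0 = 0 ∧ M 2 0 = 0 ∧ M 1 2 = 0 ∧ M 2 1 = 0 ∧ M 1 1 = M 2 2

lemma Rm.smul {M : Matrix (Fin 3) (Fin 3) k} (h : Rm M) (c : k) : Rm (c • M) := by
  obtain ⟨h1, h2, h3, h4, h5⟩ := h
  refine ⟨?_, ?_, ?_, ?_, ?_⟩ <;> simp [h1, h2, h3, h4, h5]

lemma isUnit_blk {r : GG k 2} (h1 : r • (y0 : YY k 2) = y0) : IsUnit (blk r (y0 : YY k 2)) := by
  have h2 := smul_y0.1 h1
  have h3 : r.1.det = 1 := r.2
  rw [Matrix.det_fin_three, h2 1 (by decide), h2 2 (by decide)] at h3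
  rw [blk_y0 h1, Matrix.isUnit_iff_isUnit_det, Matrix.det_fin_two, isUnit_iff_ne_zero]
  intro h4
  simp only [Matrix.submatrix_apply] at h4
  have e1 : (Fin.succ 0 : Fin 3) = 1 := rfl
  have e2 : (Fin.succ 1 : Fin 3) = 2 := rfl
  rw [e1, e2] at h4
  have : r.1 0 0 * (r.1 1 1 * r.1 2 2 - r.1 1 2 * r.1 2 1) = 1 := by linear_combination h3
  rw [h4, mul_zero] at this
  exact zero_ne_one this

lemma cc_y0 {r : GG k 2} (h1 : r • (y0 : YY k 2) = y0) {h : GL (Fin 2) k}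
    (hh : h.1 = r.1.submatrix Fin.succ Fin.succ) : cc r (y0 : YY k 2) = mkG h := by
  have hu := isUnit_blk h1
  have e : hu.unit = h := by
    apply Units.ext
    rw [IsUnit.unit_spec, blk_y0 h1]
    exact hh.symm
  unfold cc
  rw [dif_pos hu, e]
  rfl

lemma cc_y0' {r : GG k 2} (h1 : r • (y0 : YY k 2) = y0) :
    ∃ h : GL (Fin 2) k, h.1 = r.1.submatrix Fin.succ Fin.succ ∧ cc r (y0 : YY k 2) = mkG h := by
  have hu := isUnit_blk h1
  have hh : hu.unit.1 = r.1.submatrix Fin.succ Fin.succ := by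
    rw [IsUnit.unit_spec, blk_y0 h1]
  exact ⟨hu.unit, hh, cc_y0 h1 hh⟩

lemma Rm_iff {r : GG k 2} : (r • (y0 : YY k 2) = y0 ∧ cc r (y0 : YY k 2) = 1) ↔ Rm r.1 := by
  have e1 : (Fin.succ 0 : Fin 3) = 1 := rfl
  have e2 : (Fin.succ 1 : Fin 3) = 2 := rfl
  constructor
  · rintro ⟨h1, h2⟩
    obtain ⟨h, hh, hc⟩ := cc_y0' h1
    rw [hc] at h2
    have h3 := center_iff'.1 (mkG_eq_one.1 h2)
    rw [hh] at h3
    simp only [Matrix.submatrix_apply, e1, e2] at h3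
    have h4 := smul_y0.1 h1
    exact ⟨h4 1 (by decide), h4 2 (by decide), h3.1, h3.2.1, h3.2.2⟩
  · rintro ⟨h1, h2, h3, h4, h5⟩
    have h6 : r • (y0 : YY k 2) = y0 := by
      rw [smul_y0]
      intro i hi
      fin_cases i
      · exact absurd rfl hi
      · exact h1
      · exact h2
    refine ⟨h6, ?_⟩
    obtain ⟨h, hh, hc⟩ := cc_y0' h6
    rw [hc, mkG_eq_one, center_iff', hh]
    simp only [Matrix.submatrix_apply, e1, e2]
    exact ⟨h3, h4, h5⟩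

lemma Rm.mulVec {M : Matrix (Fin 3) (Fin 3) k} (h : Rm M) (x : Fin 3 → k) :
    (M *ᵥ x) 1 = M 1 1 * x 1 ∧ (M *ᵥ x) 2 = M 1 1 * x 2 := by
  obtain ⟨h1, h2, h3, h4, h5⟩ := h
  constructor
  · simp [Matrix.mulVec, dotProduct, Fin.sum_univ_three, h1, h3]
  · simp [Matrix.mulVec, dotProduct, Fin.sum_univ_three, h2, h4, h5]

lemma inv_mul_val (a : GG k 2) : (a⁻¹ : GG k 2).1 * a.1 = 1 := by
  have : (a⁻¹ * a : GG k 2).1 = 1 := by rw [inv_mul_cancel]; rfl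
  exact this

lemma mul_inv_val (a : GG k 2) : a.1 * (a⁻¹ : GG k 2).1 = 1 := by
  have : (a * a⁻¹ : GG k 2).1 = 1 := by rw [mul_inv_cancel]; rfl
  exact this

/-- proportional first columns -/
lemma y_eq_of_col {a b : GG k 2} {t : k} (ht : t ≠ 0) (h : ∀ i, a.1 i 0 = t * b.1 i 0) :
    a • (y0 : YY k 2) = b • y0 := by
  have e : ∀ (g : GG k 2) (i), (g • (Pi.single 0 1 : Fin 3 → k)) i = g.1 i 0 := by
    intro g i
    show (g.1 *ᵥ (Pi.single 0 1 : Fin 3 → k)) i = _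
    simp
  unfold y0
  rw [smul_mk, smul_mk, mk_eq_mk_iff']
  refine ⟨t, ?_⟩
  ext i
  rw [Pi.smul_apply, e, e, h, smul_eq_mul]

lemma col_of_y_eq {a b : GG k 2} (h : a • (y0 : YY k 2) = b • y0) :
    ∃ t : k, t ≠ 0 ∧ ∀ i, a.1 i 0 = t * b.1 i 0 := by
  have e : ∀ (g : GG k 2) (i), (g • (Pi.single 0 1 : Fin 3 → k)) i = g.1 i 0 := by
    intro g i
    show (g.1 *ᵥ (Pi.single 0 1 : Fin 3 → k)) i = _
    simp
  unfold y0 at h
  rw [smul_mk, smul_mk, mk_eq_mk_iff] at h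
  obtain ⟨t, ht⟩ := h
  refine ⟨t, t.ne_zero, fun i => ?_⟩
  have := congrFun ht i
  rw [e] at this
  rw [← this]
  show (t : k) * _ = _
  rw [e]

lemma ker_of {A : Matrix (Fin 3) (Fin 3) k} {a a' : GG k 2} (h : Rm ((a'⁻¹).1 * A * a.1))
    (hs : ((a'⁻¹).1 * A * a.1) 1 1 ≠ 0) {x : Fin 3 → k} (hx : A *ᵥ x = 0) :
    ∃ t : k, ∀ i, x i = t * a.1 i 0 := by
  set M := (a'⁻¹).1 * A * a.1 with hM
  have h1 : M *ᵥ ((a⁻¹).1 *ᵥ x) = 0 := by
    rw [hM, Matrix.mulVec_mulVec, Matrix.mul_assoc, mul_inv_val, Matrix.mul_one,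
      ← Matrix.mulVec_mulVec, hx, Matrix.mulVec_zero]
  have h2 := h.mulVec ((a⁻¹).1 *ᵥ x)
  rw [h1] at h2
  have h3 : ((a⁻¹).1 *ᵥ x) 1 = 0 := by
    have := h2.1
    rw [Pi.zero_apply, eq_comm, mul_eq_zero] at this
    exact this.resolve_left hs
  have h4 : ((a⁻¹).1 *ᵥ x) 2 = 0 := by
    have := h2.2
    rw [Pi.zero_apply, eq_comm, mul_eq_zero] at this
    exact this.resolve_left hs
  have h5 : x = a.1 *ᵥ ((a⁻¹).1 *ᵥ x) := by
    rw [Matrix.mulVec_mulVec, mul_inv_val, Matrix.one_mulVec]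
  refine ⟨((a⁻¹).1 *ᵥ x) 0, fun i => ?_⟩
  conv_lhs => rw [h5]
  rw [Matrix.mulVec, dotProduct, Fin.sum_univ_three, h3, h4]
  ring

lemma rank_of {A : Matrix (Fin 3) (Fin 3) k} {a a' : GG k 2} (h : Rm ((a'⁻¹).1 * A * a.1))
    (hs : ((a'⁻¹).1 * A * a.1) 1 1 = 0) : ∃ ψ : Fin 3 → k, ∀ i j, A i j = a'.1 i 0 * ψ j := by
  set M := (a'⁻¹).1 * A * a.1 with hM
  obtain ⟨h1, h2, h3, h4, h5⟩ := h
  have h6 : A = a'.1 * (M * (a⁻¹).1) := by
    rw [hM, Matrix.mul_assoc, Matrix.mul_assoc, mul_inv_val, Matrix.mul_one, ← Matrix.mul_assoc,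
      mul_inv_val, Matrix.one_mul]
  refine ⟨fun j => (M * (a⁻¹).1) 0 j, fun i j => ?_⟩
  have e1 : (M * (a⁻¹).1) 1 j = 0 := by
    rw [Matrix.mul_apply, Fin.sum_univ_three, h1, h3, hs]; ring
  have e2 : (M * (a⁻¹).1) 2 j = 0 := by
    rw [Matrix.mul_apply, Fin.sum_univ_three, h2, h4, ← h5, hs]; ring
  conv_lhs => rw [h6]
  rw [Matrix.mul_apply, Fin.sum_univ_three, e1, e2]
  ring

lemma minor_zero {A : Matrix (Fin 3) (Fin 3) k} {u ψ : Fin 3 → k}
    (hA : ∀ i j, A i j = u i * ψ j) {b b' : GG k 2} (h : Rm ((b'⁻¹).1 * A * b.1)) :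
    ((b'⁻¹).1 * A * b.1) 1 1 = 0 := by
  set M := (b'⁻¹).1 * A * b.1 with hM
  obtain ⟨h1, h2, h3, h4, h5⟩ := h
  have e : ∀ i j, M i j = ((b'⁻¹).1 *ᵥ u) i * (∑ l, ψ l * b.1 l j) := by
    intro i j
    rw [hM, Matrix.mul_apply, Matrix.mulVec, dotProduct, Finset.sum_mul_sum, Finset.sum_comm]
    refine Finset.sum_congr rfl fun l _ => ?_
    rw [Matrix.mul_apply, Finset.sum_mul]
    refine Finset.sum_congr rfl fun l' _ => ?_
    rw [hA]
    ring
  have h6 : M 1 1 * M 2 2 = M 1 2 * M 2 1 := by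
    rw [e 1 1, e 2 2, e 1 2, e 2 1]; ring
  rw [h3, zero_mul, ← h5, mul_self_eq_zero] at h6
  exact h6

/-- the limits of elements moving compact sets of pairs are invertible -/
theorem det_ne_zero_of {A : Matrix (Fin 3) (Fin 3) k} (hA : A ≠ 0) {a a' b b' : GG k 2}
    (h1 : Rm ((a'⁻¹).1 * A * a.1)) (h2 : Rm ((b'⁻¹).1 * A * b.1))
    (hab : a • (y0 : YY k 2) ≠ b • y0) (hab' : a' • (y0 : YY k 2) ≠ b' • y0) : A.det ≠ 0 := by
  intro hdet
  by_cases hs : ((a'⁻¹).1 * A * a.1) 1 1 = 0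
  · obtain ⟨ψ, hψ⟩ := rank_of h1 hs
    have hs' := minor_zero hψ h2
    obtain ⟨ψ', hψ'⟩ := rank_of h2 hs'
    obtain ⟨i, j, hij⟩ : ∃ i j, A i j ≠ 0 := by
      by_contra hcon
      push Not at hcon
      exact hA (by ext i j; exact hcon i j)
    have h3 : ψ j ≠ 0 := by
      intro h
      exact hij (by rw [hψ, h, mul_zero])
    have h4 : ψ' j ≠ 0 := by
      intro h
      exact hij (by rw [hψ', h, mul_zero])
    refine hab' (y_eq_of_col (t := ψ' j / ψ j) (div_ne_zero h4 h3) fun l => ?_)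
    have h5 := hψ l j
    rw [hψ' l j] at h5
    field_simp
    linear_combination -h5
  · by_cases hs' : ((b'⁻¹).1 * A * b.1) 1 1 = 0
    · obtain ⟨ψ', hψ'⟩ := rank_of h2 hs'
      exact hs (minor_zero hψ' h1)
    · obtain ⟨x, hx0, hx⟩ := Matrix.exists_mulVec_eq_zero_iff.2 hdet
      obtain ⟨t, ht⟩ := ker_of h1 hs hx
      obtain ⟨t', ht'⟩ := ker_of h2 hs' hx
      have h3 : t ≠ 0 := by
        rintro rfl
        exact hx0 (by ext i; rw [ht, zero_mul]; rfl)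
      have h4 : t' ≠ 0 := by
        rintro rfl
        exact hx0 (by ext i; rw [ht', zero_mul]; rfl)
      refine hab (y_eq_of_col (t := t' / t) (div_ne_zero h4 h3) fun l => ?_)
      have h5 := ht l
      rw [ht' l] at h5
      field_simp
      linear_combination -h5

end alg

section cpt

variable {k : Type} [NontriviallyNormedField k]

lemma isClosed_Rm {X : Type*} [TopologicalSpace X] {F : X → Matrix (Fin 3) (Fin 3) k}
    (hF : Continuous F) : IsClosed {x | Rm (F x)} := by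
  have h : ∀ i j, Continuous fun x => F x i j := fun i j => hF.matrix_elem i j
  have e : {x | Rm (F x)} = {x | F x 1 0 = 0} ∩ ({x | F x 2 0 = 0} ∩ ({x | F x 1 2 = 0} ∩
      ({x | F x 2 1 = 0} ∩ {x | F x 1 1 = F x 2 2}))) := by
    ext x
    rfl
  rw [e]
  exact (isClosed_eq (h 1 0) continuous_const).inter ((isClosed_eq (h 2 0) continuous_const).inter
    ((isClosed_eq (h 1 2) continuous_const).inter ((isClosed_eq (h 2 1) continuous_const).inter
      (isClosed_eq (h 1 1) (h 2 2)))))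

lemma isCompact_mat [ProperSpace k] (r : ℝ) :
    IsCompact {A : Matrix (Fin 3) (Fin 3) k | ∀ i j, ‖A i j‖ ≤ r} := by
  have h2 : {A : Matrix (Fin 3) (Fin 3) k | ∀ i j, ‖A i j‖ ≤ r} =
      Set.univ.pi fun _ : Fin 3 => Set.univ.pi fun _ : Fin 3 => Metric.closedBall (0 : k) r := by
    ext A
    exact ⟨fun h i _ j _ => mem_closedBall_zero_iff.2 (h i j),
      fun h i j => mem_closedBall_zero_iff.1 (h i trivial j trivial)⟩
  rw [h2]
  exact isCompact_univ_pi fun _ => isCompact_univ_pi fun _ => isCompact_closedBall _ _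

/-- **Properness.** -/
theorem bdd [ProperSpace k] {K₁ K₂ : Set (GG k 2)} (h1 : IsCompact K₁) (h2 : IsCompact K₂)
    (hd : ∀ a ∈ K₁, ∀ b ∈ K₂, a • (y0 : YY k 2) ≠ b • y0) : ∃ C : ℝ, ∀ g : GG k 2,
    (∃ a ∈ K₁, ∃ a' ∈ K₁, Rm ((a'⁻¹).1 * g.1 * a.1)) →
    (∃ b ∈ K₂, ∃ b' ∈ K₂, Rm ((b'⁻¹).1 * g.1 * b.1)) → ∀ i j, ‖g.1 i j‖ ≤ C := by
  let X := Matrix (Fin 3) (Fin 3) k × (GG k 2 × GG k 2) × (GG k 2 × GG k 2)
  let S : Set X := ({A | ∀ i j, ‖A i j‖ ≤ 1} ×ˢ (K₁ ×ˢ K₁) ×ˢ (K₂ ×ˢ K₂)) ∩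
    ({x : X | ∃ i j, x.1 i j = 1} ∩ ({x | Rm ((x.2.1.2⁻¹).1 * x.1 * x.2.1.1.1)} ∩
      {x | Rm ((x.2.2.2⁻¹).1 * x.1 * x.2.2.1.1)}))
  have hv : Continuous fun g : GG k 2 => g.1 := sl_ce.continuous
  have hc1 : Continuous fun x : X => x.1 := continuous_fst
  have hS : IsCompact S := by
    refine IsCompact.inter_right ((isCompact_mat 1).prod ((h1.prod h1).prod (h2.prod h2))) ?_
    refine IsClosed.inter ?_ (IsClosed.inter ?_ ?_)
    · have e : {x : X | ∃ i j, x.1 i j = 1} = ⋃ i, ⋃ j, {x : X | x.1 i j = 1} := by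
        ext x
        simp
      rw [e]
      refine isClosed_iUnion_of_finite fun i => isClosed_iUnion_of_finite fun j => ?_
      exact isClosed_eq (hc1.matrix_elem i j) continuous_const
    · refine isClosed_Rm ?_
      have ha : Continuous fun x : X => (x.2.1.2⁻¹).1 :=
        hv.comp (continuous_snd.comp (continuous_fst.comp continuous_snd)).inv
      have hb : Continuous fun x : X => x.2.1.1.1 :=
        hv.comp (continuous_fst.comp (continuous_fst.comp continuous_snd))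
      exact (ha.matrix_mul hc1).matrix_mul hb
    · refine isClosed_Rm ?_
      have ha : Continuous fun x : X => (x.2.2.2⁻¹).1 :=
        hv.comp (continuous_snd.comp (continuous_snd.comp continuous_snd)).inv
      have hb : Continuous fun x : X => x.2.2.1.1 :=
        hv.comp (continuous_fst.comp (continuous_snd.comp continuous_snd))
      exact (ha.matrix_mul hc1).matrix_mul hb
  have hf : ContinuousOn (fun x : X => ‖x.1.det‖) S := (hc1.matrix_det).norm.continuousOn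
  obtain ⟨c, hc, hcS⟩ := hS.exists_forall_le' hf (a := 0) (by
    rintro ⟨A, ⟨a, a'⟩, ⟨b, b'⟩⟩ ⟨⟨hA, ⟨ha, ha'⟩, hb, hb'⟩, ⟨i, j, hij⟩, hR1, hR2⟩
    refine norm_pos_iff.2 (det_ne_zero_of ?_ hR1 hR2 (hd a ha b hb) (hd a' ha' b' hb'))
    intro h
    have h' : A i j = 0 := by
      have h'' : A = 0 := h
      rw [h'']
      rfl
    have hij' : A i j = 1 := hij
    rw [h'] at hij'
    exact zero_ne_one hij')
  refine ⟨max 1 (1 / c), ?_⟩
  rintro g ⟨a, ha, a', ha', hR1⟩ ⟨b, hb, b', hb', hR2⟩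
  obtain ⟨⟨i, j⟩, hmax⟩ := Finite.exists_max fun x : Fin 3 × Fin 3 => ‖g.1 x.1 x.2‖
  set l := g.1 i j with hl
  have hl0 : l ≠ 0 := by
    intro h
    have h3 : g.1 = 0 := by
      ext i' j'
      have h5 : ‖g.1 i' j'‖ ≤ ‖l‖ := hmax (i', j')
      rw [h, norm_zero] at h5
      exact norm_le_zero_iff.1 h5
    have h4 : g.1.det = 1 := g.2
    rw [h3, Matrix.det_zero] at h4
    exact zero_ne_one h4
  have hlp : 0 < ‖l‖ := norm_pos_iff.2 hl0
  have hx : (l⁻¹ • g.1, (a, a'), (b, b')) ∈ S := by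
    refine ⟨⟨?_, ⟨ha, ha'⟩, hb, hb'⟩, ⟨i, j, ?_⟩, ?_, ?_⟩
    · intro i' j'
      have h5 : ‖g.1 i' j'‖ ≤ ‖l‖ := hmax (i', j')
      show ‖(l⁻¹ • g.1) i' j'‖ ≤ 1
      rw [Matrix.smul_apply, smul_eq_mul, norm_mul, norm_inv, inv_mul_le_iff₀ hlp, mul_one]
      exact h5
    · show (l⁻¹ • g.1) i j = 1
      rw [Matrix.smul_apply, smul_eq_mul, ← hl, inv_mul_cancel₀ hl0]
    · show Rm ((a'⁻¹).1 * (l⁻¹ • g.1) * a.1)
      rw [Matrix.mul_smul, Matrix.smul_mul]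
      exact hR1.smul _
    · show Rm ((b'⁻¹).1 * (l⁻¹ • g.1) * b.1)
      rw [Matrix.mul_smul, Matrix.smul_mul]
      exact hR2.smul _
  have h3 := hcS _ hx
  simp only [Matrix.det_smul, Fintype.card_fin] at h3
  have h4 : g.1.det = 1 := g.2
  rw [h4, mul_one, norm_pow, norm_inv] at h3
  have h5 : ‖l‖ ≤ max 1 (1 / c) := by
    by_cases h6 : ‖l‖ ≤ 1
    · exact le_max_of_le_left h6
    · rw [not_le] at h6
      apply le_max_of_le_right
      rw [inv_pow] at h3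
      have h7 : ‖l‖ ^ 3 ≤ 1 / c := by
        rw [le_div_iff₀ hc]
        have h8 : 0 < ‖l‖ ^ 3 := pow_pos hlp 3
        calc ‖l‖ ^ 3 * c ≤ ‖l‖ ^ 3 * (‖l‖ ^ 3)⁻¹ := mul_le_mul_of_nonneg_left h3 h8.le
          _ = 1 := mul_inv_cancel₀ h8.ne'
      refine le_trans ?_ h7
      calc ‖l‖ = ‖l‖ ^ 1 := (pow_one _).symm
        _ ≤ ‖l‖ ^ 3 := pow_le_pow_right₀ h6.le (by norm_num)
  intro i' j'
  exact (hmax (i', j')).trans h5

end cpt

end Vale.Agent.P092.H684
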