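import Vale.Agent.P092.H684.Psp1
import Vale.Agent.P092.H15.Sp
import Vale.Agent.P092.H714.SpM
import Vale.Agent.P092.H714.Cl5

/-!
P092, TEAM P, [P-PSP] (helper684), part 2: the centre of the symplectic group, the quotients
`Sp ⧸ Z`, `Z` central, as sources and targets; ICC lattices of all groups with a proper central
quotient `PSp`.
-/

set_option linter.all false

open Matrix Filter Topology

namespace Vale.Agent.P092.H684.Psp

open Vale.Agent.P092.RC (Moore PG)
open Vale.Agent.P092.H35 (sp mkP nmx)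
open Vale.Agent.P092.H515.St (IsLattice)
open Vale.Agent.P092.SR.St (ICC)
open Vale.Agent.P092.H303 (FormGroup)
open Vale.Agent.P092.H15 (HMG Alt)
open Vale.Agent.P092.H714.Sp (moore_of_tendsto tendsto_cocompact_of)

section alt

variable {n : ℕ} {k : Type} [NontriviallyNormedField k] {J : Matrix (Fin n) (Fin n) k}

theorem formGroup_id {g : SpecialLinearGroup (Fin n) k} :
    g ∈ FormGroup (RingHom.id k) J ↔ g.1 * J * g.1ᵀ = J := by
  have e : g.1.map (RingHom.id k) = g.1 := by
    ext i j
    rfl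
  rw [H303.mem_formGroup, e]

/-- **The centre of the symplectic group is `{1, -1}`.** -/
theorem center_alt [Nonempty (Fin n)] (h : Alt J) {z : FormGroup (RingHom.id k) J} :
    z ∈ Subgroup.center (FormGroup (RingHom.id k) J) ↔ z.1.1 = 1 ∨ z.1.1 = -1 := by
  constructor
  · intro hz
    obtain ⟨a, -, ha⟩ := H714.Cl.center_smul h.frm (H15.formGroup_eq_GT h).ge le_rfl hz
    have hza : z.1.1 = a • (1 : Matrix (Fin n) (Fin n) k) := by
      rw [ext_iff_vecMul]
      intro x
      rw [ha, vecMul_smul, vecMul_one]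
    have h1 := formGroup_id.1 z.2
    rw [hza, smul_mul_assoc, one_mul, transpose_smul, transpose_one, mul_smul_comm, mul_one,
      smul_smul] at h1
    have h2 : a * a = 1 := by
      by_contra hne
      apply h.det
      have h3 : (a * a - 1) • J = 0 := by rw [sub_smul, one_smul, h1, sub_self]
      have h4 : J = 0 := (smul_eq_zero.1 h3).resolve_left (sub_ne_zero.2 hne)
      rw [h4]
      exact det_zero
    rcases mul_self_eq_one_iff.1 h2 with h3 | h3
    · left; rw [hza, h3, one_smul]
    · right; rw [hza, h3, neg_smul, one_smul]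
  · rintro (hz | hz)
    · refine Subgroup.mem_center_iff.2 (spG_central (spG_one_iff.2 ⟨1, ?_⟩))
      rw [hz, one_smul]
    · refine Subgroup.mem_center_iff.2 (spG_central (spG_one_iff.2 ⟨-1, ?_⟩))
      rw [hz, neg_smul, one_smul]

theorem sc_of_le [Nonempty (Fin n)] (h : Alt J) {Z : Subgroup (FormGroup (RingHom.id k) J)}
    (hZ : Z ≤ Subgroup.center (FormGroup (RingHom.id k) J)) : Sc Z := by
  intro z hz
  rcases (center_alt h).1 (hZ hz) with h1 | h1
  · exact ⟨1, by rw [h1, one_smul]⟩
  · exact ⟨-1, by rw [h1, neg_smul, one_smul]⟩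

theorem sc_center [Nonempty (Fin n)] (h : Alt J) :
    Sc (Subgroup.center (FormGroup (RingHom.id k) J)) := sc_of_le h le_rfl

/-- the letter `PH`, with signs -/
theorem ph_sign [Nonempty (Fin n)] (h : Alt J) {Z : Subgroup (FormGroup (RingHom.id k) J)}
    [Z.Normal] (hZ : Z ≤ Subgroup.center (FormGroup (RingHom.id k) J)) {Γ : Type} [Group Γ]
    (i : Γ →* FormGroup (RingHom.id k) J ⧸ Z) (γ γ' : Γ) :
    (qO Z (i (γ * γ'))).1.1 = (qO Z (i γ)).1.1 * (qO Z (i γ')).1.1 ∨
      (qO Z (i (γ * γ'))).1.1 = -((qO Z (i γ)).1.1 * (qO Z (i γ')).1.1) := by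
  obtain ⟨z, hz, e⟩ := qO_mul i γ γ'
  have e' : (qO Z (i (γ * γ'))).1.1 = (qO Z (i γ)).1.1 * (qO Z (i γ')).1.1 * z.1.1 := by
    rw [e]
    rfl
  rcases (center_alt h).1 (hZ hz) with h1 | h1
  · left; rw [e', h1, mul_one]
  · right; rw [e', h1, mul_neg, mul_one]

theorem closed_alt : IsClosed (FormGroup (RingHom.id k) J : Set (SpecialLinearGroup (Fin n) k)) :=
  H303.isClosed_formGroup (σ := RingHom.id k) continuous_id J

end alt

/-! ### Moore sets -/

section moore

variable {n : ℕ} {k : Type} [NontriviallyNormedField k]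
  {G : Subgroup (SpecialLinearGroup (Fin n) k)}

/-- unbounded sets are Moore sets -/
theorem moore_unb (h : HMG G) {S : Set G} (hS : ∀ C : ℝ, ∃ g ∈ S, C < nmx g.1.1) : Moore S := by
  choose b hb hC using fun N : ℕ => hS N
  have c0 : Continuous fun g : G => nmx g.1.1 :=
    H35.nmx_cont.comp (continuous_subtype_val.comp continuous_subtype_val)
  refine moore_of_tendsto h (l := atTop) (b := b) (tendsto_cocompact_of c0 ?_)
    (Eventually.of_forall hb)
  exact tendsto_atTop_mono (fun N => (hC N).le) tendsto_natCast_atTop_atTop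

/-- images of unbounded sets under continuous surjections are Moore sets -/
theorem moore_unb_image (h : HMG G) {E : Type} [Group E] [TopologicalSpace E] (ι : G →* E)
    (hι : Continuous ι) (hs : Function.Surjective ι) {S : Set G}
    (hS : ∀ C : ℝ, ∃ g ∈ S, C < nmx g.1.1) : Moore (ι '' S) :=
  moore_image ι hι hs (moore_unb h hS)

end moore

/-! ### Groups with a proper central quotient `PSp` -/

section nf

/-- `PSp(J)` -/
abbrev PFm {n : ℕ} {k : Type} [NontriviallyNormedField k] (J : Matrix (Fin n) (Fin n) k) : Type :=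
  FormGroup (RingHom.id k) J ⧸ Subgroup.center (FormGroup (RingHom.id k) J)

/-- a group with a proper central quotient `G` -/
structure NC (E G : Type) [Group E] [TopologicalSpace E] [Group G] [TopologicalSpace G] : Prop where
  tg : IsTopologicalGroup E
  t2 : T2Space E
  ex : ∃ p : E →* G, Continuous p ∧ Function.Surjective p ∧
    (∀ C : Set G, IsCompact C → IsCompact (p ⁻¹' C)) ∧ ∀ e, p e = 1 → ∀ x, x * e = e * x

theorem nc_refl (G : Type) [Group G] [TopologicalSpace G] [IsTopologicalGroup G] [T2Space G] :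
    NC G G := ⟨inferInstance, inferInstance, MonoidHom.id _, continuous_id, Function.surjective_id,
  fun C hC => hC, fun e he x => by
    have he : e = 1 := he
    rw [he, mul_one, one_mul]⟩

/-- `G ⧸ Z' → G ⧸ Z` -/
theorem nc_quo {k : Type} [NontriviallyNormedField k] {n : ℕ}
    {G : Subgroup (SpecialLinearGroup (Fin n) k)} (hn : n ≠ 0) {Z' Z : Subgroup G} [Z'.Normal]
    [Z.Normal] (h : Z' ≤ Z) (hZ : Sc Z) : NC (G ⧸ Z') (G ⧸ Z) := by
  have hZ' : Sc Z' := fun z hz => hZ z (h hz)
  haveI := t2_quo hn hZ'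
  haveI := t2_quo hn hZ
  let p : G ⧸ Z' →* G ⧸ Z := QuotientGroup.lift Z' (QuotientGroup.mk' Z) fun z hz =>
    (QuotientGroup.eq_one_iff z).2 (h hz)
  have hp : ∀ g, p (QuotientGroup.mk' Z' g) = QuotientGroup.mk' Z g := fun _ => rfl
  have hc : Continuous p := Continuous.quotient_lift continuous_quotient_mk' _
  refine ⟨inferInstance, inferInstance, p, hc, fun y => ?_, fun C hC => ?_, fun e he x => ?_⟩
  · obtain ⟨g, rfl⟩ := QuotientGroup.mk'_surjective Z y
    exact ⟨QuotientGroup.mk' Z' g, rfl⟩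
  · have h1 := (proper_quo hn hZ C hC).image (f := QuotientGroup.mk' Z') continuous_quotient_mk'
    refine h1.of_isClosed_subset (hC.isClosed.preimage hc) fun x hx => ?_
    obtain ⟨g, rfl⟩ := QuotientGroup.mk'_surjective Z' x
    exact ⟨g, hx, rfl⟩
  · obtain ⟨g, rfl⟩ := QuotientGroup.mk'_surjective Z' e
    obtain ⟨y, rfl⟩ := QuotientGroup.mk'_surjective Z' x
    have h1 : g ∈ Z := (QuotientGroup.eq_one_iff g).1 he
    rw [← map_mul, ← map_mul, spG_central (hZ.one h1) y]

theorem nc_G {k : Type} [NontriviallyNormedField k] {n : ℕ}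
    {G : Subgroup (SpecialLinearGroup (Fin n) k)} (hn : n ≠ 0) {Z : Subgroup G} [Z.Normal]
    (hZ : Sc Z) : NC G (G ⧸ Z) :=
  ⟨inferInstance, inferInstance, QuotientGroup.mk' Z, continuous_quotient_mk',
    QuotientGroup.mk'_surjective Z, proper_quo hn hZ, fun e he x =>
      spG_central (hZ.one ((QuotientGroup.eq_one_iff e).1 he)) x⟩

/-- **ICC lattices of a group with proper central quotient `G` are ICC lattices of `G`.** -/
theorem lat_nc {E G : Type} [Group E] [TopologicalSpace E] [Group G] [TopologicalSpace G]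
    [IsTopologicalGroup G] [T2Space G] [LocallyCompactSpace G] (h : NC E G) {Γ : Type} [Group Γ]
    (hicc : ICC Γ) (i : Γ →* E) (hi : Function.Injective i) (hl : IsLattice i.range) :
    ∃ i' : Γ →* G, Function.Injective i' ∧ IsLattice i'.range := by
  haveI := h.tg
  haveI := h.t2
  obtain ⟨p, hc, hs, hp, hz⟩ := h.ex
  exact ⟨p.comp i, inj_comp_icc hicc hi p hz, lat_comp hl p hc hs hp⟩

end nf

end Vale.Agent.P092.H684.Psp
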