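import Vale.Agent.P092.H684.Psp3
import Vale.Agent.P092.SP.Defs
import Vale.Agent.P092.SP.Grp

/-!
P092, TEAM P, [P-PSP] (helper684), part 5: the letters of `SP/Defs` for `Sp_4(k)` and its quotients:
`Adm`, `PH`, `UD`, finite balls, faithfulness.
-/

set_option linter.all false

open Matrix Filter Topology

namespace Vale.Agent.P092.H684.Psp

open Vale.Agent.P092.RC (Moore PG YY GG)
open Vale.Agent.P092.H35 (sp mkP nmx)
open Vale.Agent.P092.H515.St (IsLattice)
open Vale.Agent.P092.SR.St (ICC)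
open Vale.Agent.P092.SP4 (J4 S4 LL)

variable {k : Type} [NontriviallyNormedField k]

theorem nm_eq (h : S4 k) : SP.nm h = nmx h.1.1 := rfl

/-- **Admissible sources**: continuous surjective images of `Sp_4(k)` over `PGL_4(k)` -/
theorem adm_of [ProperSpace k] {E : Type} [Group E] [TopologicalSpace E]
    (tg : IsTopologicalGroup E) (ι : S4 k →* E) (hι : Continuous ι) (hs : Function.Surjective ι)
    (a : E →* PG k 4) (ha : Continuous a) (h : ∀ g, a (ι g) = sp k 4 g.1) : SP.Adm ι a where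
  tg := tg
  cι := hι
  sur := hs
  ca := ha
  comp g x := by
    rw [h]
    rfl
  moore S hS := by
    refine moore4 ι hι hs fun C => ?_
    obtain ⟨g, hg, h1⟩ := hS (C + 1)
    have h2 : C + 1 ≤ nmx g.1.1 := h1
    exact ⟨g, hg, by linarith⟩

/-- **`Sp_4(k)`** -/
theorem adm_id [ProperSpace k] :
    SP.Adm (MonoidHom.id (S4 k)) ((sp k 4).comp (S4 k).subtype) :=
  adm_of inferInstance _ continuous_id Function.surjective_id _ spG_cont fun _ => rfl

/-- **`Sp_4(k) ⧸ Z`, `Z` central**, for example `PSp_4(k)` -/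
theorem adm_quo [ProperSpace k] (Z : Subgroup (S4 k)) [Z.Normal]
    (hZ : Z ≤ Subgroup.center (S4 k)) :
    SP.Adm (QuotientGroup.mk' Z) (spq Z (sc4_of_le hZ)) :=
  adm_of inferInstance _ continuous_quotient_mk' (QuotientGroup.mk'_surjective Z) _
    (spq_cont _) fun _ => rfl

section tgt

variable {Z : Subgroup (S4 k)} [Z.Normal] (hZ : Z ≤ Subgroup.center (S4 k)) {Γ : Type} [Group Γ]
  (i : Γ →* S4 k ⧸ Z)

include hZ in
theorem ph_q : SP.PH fun γ => qO Z (i γ) := fun γ γ' => ph_qO (sc4_of_le hZ) i γ γ'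

theorem nc_psp (hZ : Z ≤ Subgroup.center (S4 k)) : NoncompactSpace (S4 k ⧸ Z) := by
  haveI := SP.nc_S4 (k := k)
  exact ⟨noncompact_quo (by norm_num) (sc4_of_le hZ) (noncompact_univ (S4 k))⟩

include hZ in
theorem t2_psp : T2Space (S4 k ⧸ Z) := t2_quo (by norm_num) (sc4_of_le hZ)

theorem lc_psp [ProperSpace k] : LocallyCompactSpace (S4 k ⧸ Z) := lc_quo closed4

theorem sc_psp [ProperSpace k] : SecondCountableTopology (S4 k ⧸ Z) := sc_quo

include hZ in
theorem fin_q [ProperSpace k] (hi : Function.Injective i) (hd : DiscreteTopology i.range) (C : ℝ) :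
    {γ : Γ | SP.nm (qO Z (i γ)) ≤ C}.Finite :=
  fin_qO (by norm_num) (sc4_of_le hZ) closed4 i hi hd C

/-- uniform discreteness from finite balls, any `q` -/
theorem ud_any {q : Γ → S4 k} (hq : SP.PH q) (hf : ∀ C : ℝ, {γ : Γ | SP.nm (q γ) ≤ C}.Finite) :
    SP.UD q := by
  intro C
  obtain ⟨M, hM⟩ := ud_of_fin (by norm_num) hq hf C
  exact ⟨M, fun S _ hS => hM S hS⟩

include hZ in
theorem ud_q [ProperSpace k] (hi : Function.Injective i) (hd : DiscreteTopology i.range) :
    SP.UD fun γ => qO Z (i γ) := ud_any (ph_q hZ i) (fin_q hZ i hi hd)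

include hZ in
/-- faithfulness on the projective space -/
theorem inj_q [ProperSpace k] (hicc : ICC Γ) (hi : Function.Injective i) (γ : Γ)
    (h : sp k 4 (qO Z (i γ)).1 = 1) : γ = 1 := by
  have h1 := spq_inj_icc Z (sc4_of_le hZ) hicc i hi
  rw [injective_iff_map_eq_one] at h1
  refine h1 γ ?_
  have h2 := sp_qO (sc4_of_le hZ) (i γ)
  exact h2.symm.trans h

end tgt

section tgt'

variable {Γ : Type} [Group Γ] (i : Γ →* S4 k)

theorem ph_hom : SP.PH fun γ => i γ := fun γ γ' => ⟨1, by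
  rw [one_smul]
  show (i (γ * γ')).1.1 = _
  rw [map_mul]
  rfl⟩

theorem fin_hom [ProperSpace k] (hi : Function.Injective i) (hd : DiscreteTopology i.range)
    (C : ℝ) : {γ : Γ | SP.nm (i γ) ≤ C}.Finite := by
  have h2 := H790.finite_inter i.range (compact_bdd (closed4 (k := k)) C)
  refine Set.Finite.of_finite_image (f := fun γ : Γ => (⟨i γ, γ, rfl⟩ : i.range))
    (h2.subset ?_) fun γ _ γ' _ e => hi (congrArg Subtype.val e)
  rintro _ ⟨γ, hγ, rfl⟩
  exact hγ

theorem inj_hom (hicc : ICC Γ) (hi : Function.Injective i) (γ : Γ)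
    (h : sp k 4 (i γ).1 = 1) : γ = 1 := by
  have h1 := inj_comp_icc (E' := PG k 4) hicc hi (spG (S4 k)) fun e he x => spG_central he x
  rw [injective_iff_map_eq_one] at h1
  exact h1 γ h

end tgt'

end Vale.Agent.P092.H684.Psp
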