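import Vale.Agent.P092.H684.Psp8

/-!
P092, TEAM P, [P-PSP] (helper684), part 9: groups with a compact normal subgroup and quotient
`PSp_4(k)`; the literal form of the final class (`k = ℝ`, or `k` ultrametric with `2 ≠ 0`).
-/

set_option linter.all false

open Matrix Filter Topology

namespace Vale.Agent.P092.H684.Psp

open Vale.Agent.P092.H515.St (IsLattice)
open Vale.Agent.P092.SR.St (ICC Super)
open Vale.Agent.P092.SP4 (J4 S4)
open Vale.Agent.P092.SN (CoreE super_of_coreE)

/-! ### Compact kernels -/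

/-- a Hausdorff group with a proper continuous homomorphism onto `G` -/
structure PQ (E G : Type) [Group E] [TopologicalSpace E] [Group G] [TopologicalSpace G] : Prop where
  tg : IsTopologicalGroup E
  t2 : T2Space E
  ex : ∃ p : E →* G, Continuous p ∧ Function.Surjective p ∧
    ∀ C : Set G, IsCompact C → IsCompact (p ⁻¹' C)

theorem NC.pq {E G : Type} [Group E] [TopologicalSpace E] [Group G] [TopologicalSpace G]
    (h : NC E G) : PQ E G := by
  obtain ⟨p, h1, h2, h3, -⟩ := h.ex
  exact ⟨h.tg, h.t2, p, h1, h2, h3⟩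

/-- a compact normal subgroup meets an ICC lattice trivially -/
theorem inj_comp_compact {E E' Γ : Type} [Group E] [TopologicalSpace E] [IsTopologicalGroup E]
    [T2Space E] [Group E'] [TopologicalSpace E'] [Group Γ] (hicc : ICC Γ) {i : Γ →* E}
    (hi : Function.Injective i) (hd : DiscreteTopology i.range) (p : E →* E')
    (hp : ∀ C : Set E', IsCompact C → IsCompact (p ⁻¹' C)) : Function.Injective (p.comp i) := by
  rw [injective_iff_map_eq_one]
  intro g hg
  by_contra hne
  refine hicc g hne ?_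
  have h1 := H790.finite_inter i.range (hp {1} isCompact_singleton)
  refine Set.Finite.of_finite_image (f := fun γ : Γ => (⟨i γ, γ, rfl⟩ : i.range))
    (h1.subset ?_) fun γ _ γ' _ e => hi (congrArg Subtype.val e)
  rintro _ ⟨_, ⟨h, rfl⟩, rfl⟩
  show p (i (h * g * h⁻¹)) = 1
  have hg' : p (i g) = 1 := hg
  rw [map_mul, map_mul, map_mul, map_mul, hg', mul_one, ← map_mul, ← map_mul, mul_inv_cancel,
    map_one, map_one]

/-- **ICC lattices of a group with a proper quotient `G` are ICC lattices of `G`.** -/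
theorem lat_pq {E G : Type} [Group E] [TopologicalSpace E] [Group G] [TopologicalSpace G]
    [IsTopologicalGroup G] [T2Space G] [LocallyCompactSpace G] (h : PQ E G) {Γ : Type} [Group Γ]
    (hicc : ICC Γ) (i : Γ →* E) (hi : Function.Injective i) (hl : IsLattice i.range) :
    ∃ i' : Γ →* G, Function.Injective i' ∧ IsLattice i'.range := by
  haveI := h.tg
  haveI := h.t2
  obtain ⟨p, hc, hs, hp⟩ := h.ex
  exact ⟨p.comp i, inj_comp_compact hicc hi hl.disc p hp, lat_comp hl p hc hs hp⟩

theorem super_pq {E G : Type} [Group E] [TopologicalSpace E] [Group G] [TopologicalSpace G]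
    [IsTopologicalGroup G] [T2Space G] [LocallyCompactSpace G] (hE : PQ E G) (h : CoreE G)
    {Γ : Type} [Group Γ] (hicc : ICC Γ) (i : Γ →* E) (hi : Function.Injective i)
    (hl : IsLattice i.range) : Super Γ := by
  obtain ⟨i', hi', hl'⟩ := lat_pq hE hicc i hi hl
  exact super_of_coreE h hicc i' hi' hl'

end Vale.Agent.P092.H684.Psp

/-! ### Literal forms -/

namespace Vale.Agent.P092.H684.Psp.St

open Vale.Agent.P092.H515.St (IsLattice)
open Vale.Agent.P092.SR.St (ICC Super SuperAll)
open Vale.Agent.P092.SP.St (IsSp)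

/-- `Γ` is (isomorphic to) a lattice in a Hausdorff topological group `E` with a continuous
homomorphism `p` onto `PSp_4(k) = Sp_4(k) ⧸ {1, -1}` for which preimages of compact sets are compact
(for example `E = Sp_4(k)`, `E = PSp_4(k)`, `E = PSp_4(k) × K`, `K` compact). -/
def LatC (k : Type) [NontriviallyNormedField k] (Γ : Type) [Group Γ] : Prop :=
  ∃ (G : Subgroup (SpecialLinearGroup (Fin 4) k)) (E : Type) (_ : Group E) (_ : TopologicalSpace E)
    (p : E →* G ⧸ Subgroup.center G) (i : Γ →* E),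
    IsSp k G ∧ IsTopologicalGroup E ∧ T2Space E ∧ Continuous p ∧ Function.Surjective p ∧
    (∀ C, IsCompact C → IsCompact (p ⁻¹' C)) ∧ Function.Injective i ∧ IsLattice i.range

/-- The class: ICC lattices of the groups `E` of `LatC k`, for `k = ℝ` or `k` a local field with
ultrametric absolute value, of characteristic not two. -/
def SpLattice₂ (Γ : Type) [Group Γ] : Prop :=
  ICC Γ ∧ (LatC ℝ Γ ∨ ∃ (k : Type) (_ : NontriviallyNormedField k),
    ProperSpace k ∧ IsUltrametricDist k ∧ (2 : k) ≠ 0 ∧ LatC k Γ)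

/-- `t = 1` -/
def Final2 : Prop := ∀ (Γ : Type) [Group Γ], SpLattice₂ Γ → Super Γ

/-- all `t` -/
def Final2All : Prop := ∀ (Γ : Type) [Group Γ], SpLattice₂ Γ → SuperAll Γ

end Vale.Agent.P092.H684.Psp.St

namespace Vale.Agent.P092.H684.Psp

open Vale.Agent.P092.H515.St (IsLattice)
open Vale.Agent.P092.SR.St (ICC Super SuperAll)
open Vale.Agent.P092.SP4 (J4 S4)
open Vale.Agent.P092.SP.St (IsSp)

/-- the class contains the lattices of `Sp_4(k)` -/
theorem latC_of_sp {k : Type} [NontriviallyNormedField k] {Γ : Type} [Group Γ]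
    (G : Subgroup (SpecialLinearGroup (Fin 4) k)) (i : Γ →* G) (hG : IsSp k G)
    (hi : Function.Injective i) (hl : IsLattice i.range) : St.LatC k Γ := by
  obtain rfl := SP.eq_form hG
  obtain ⟨tg, t2, p, h1, h2, h3, -⟩ := nc_sp4 k
  exact ⟨_, S4 k, inferInstance, inferInstance, p, i, hG, tg, t2, h1, h2, h3, hi, hl⟩

/-- the class contains the lattices of `PSp_4(k)` -/
theorem latC_of_psp {k : Type} [NontriviallyNormedField k] {Γ : Type} [Group Γ]
    (G : Subgroup (SpecialLinearGroup (Fin 4) k)) (i : Γ →* G ⧸ Subgroup.center G) (hG : IsSp k G)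
    (hi : Function.Injective i) (hl : IsLattice i.range) : St.LatC k Γ := by
  obtain rfl := SP.eq_form hG
  obtain ⟨tg, t2, p, h1, h2, h3, -⟩ := nc_psp4 k
  exact ⟨_, PSp4 k, inferInstance, inferInstance, p, i, hG, tg, t2, h1, h2, h3, hi, hl⟩

/-- **The reduction to `PSp_4(k)`.** -/
theorem lat_of_latC {k : Type} [NontriviallyNormedField k] [ProperSpace k] {Γ : Type} [Group Γ]
    (hicc : ICC Γ) (h : St.LatC k Γ) :
    ∃ i : Γ →* PSp4 k, Function.Injective i ∧ IsLattice i.range := by
  obtain ⟨G, E, _, _, p, i, hG, tg, t2, hc, hs, hp, hi, hl⟩ := h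
  obtain rfl := SP.eq_form hG
  have h1 : PQ E (PSp4 k) := ⟨tg, t2, p, hc, hs, hp⟩
  exact lat_pq h1 hicc i hi hl

theorem latC_iff {k : Type} [NontriviallyNormedField k] [ProperSpace k] {Γ : Type} [Group Γ]
    (hicc : ICC Γ) : St.LatC k Γ ↔
      ∃ i : Γ →* PSp4 k, Function.Injective i ∧ IsLattice i.range :=
  ⟨lat_of_latC hicc, fun ⟨i, hi, hl⟩ =>
    latC_of_psp _ i (fun g => by rw [formGroup_id]; rfl) hi hl⟩

end Vale.Agent.P092.H684.Psp
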