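import Mathlib

/-!
P092, Team C, [C-REC]: bi-additive functions on compact open rectangles, packing modulo a discrete
group, recurrence.
-/

set_option linter.all false

open Topology Pointwise

namespace Vale.Agent.P092.H684

/-- compact open sets -/
abbrev CO {X : Type*} [TopologicalSpace X] (C : Set X) : Prop := IsCompact C ∧ IsOpen C

section co

variable {X : Type*} [TopologicalSpace X]

lemma CO.empty : CO (∅ : Set X) := ⟨isCompact_empty, isOpen_empty⟩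

lemma CO.inter [T2Space X] {A B : Set X} (hA : CO A) (hB : CO B) : CO (A ∩ B) :=
  ⟨hA.1.inter hB.1, hA.2.inter hB.2⟩

lemma CO.diff [T2Space X] {A B : Set X} (hA : CO A) (hB : CO B) : CO (A \ B) :=
  ⟨hA.1.diff hB.2, hA.2.sdiff hB.1.isClosed⟩

lemma CO.union {A B : Set X} (hA : CO A) (hB : CO B) : CO (A ∪ B) :=
  ⟨hA.1.union hB.1, hA.2.union hB.2⟩

lemma CO.biUnion {ι : Type*} (s : Finset ι) {A : ι → Set X} (hA : ∀ i ∈ s, CO (A i)) :
    CO (⋃ i ∈ s, A i) :=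
  ⟨s.isCompact_biUnion fun i hi => (hA i hi).1, isOpen_biUnion fun i hi => (hA i hi).2⟩

lemma CO.smul {Γ : Type*} [Group Γ] [MulAction Γ X] [ContinuousConstSMul Γ X] {A : Set X}
    (hA : CO A) (g : Γ) : CO (g • A) := ⟨hA.1.smul g, hA.2.smul g⟩

end co

/-- A function on sets, additive on the compact open subsets of `C`. -/
def AddOn {X : Type*} [TopologicalSpace X] (C : Set X) (m : Set X → ℝ) : Prop :=
  ∀ A B, CO A → CO B → A ⊆ C → B ⊆ C → Disjoint A B → m (A ∪ B) = m A + m B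

section one

variable {X : Type*} [TopologicalSpace X] {C : Set X} {m : Set X → ℝ}

lemma AddOn.empty (hm : AddOn C m) : m ∅ = 0 := by
  have h := hm ∅ ∅ CO.empty CO.empty (Set.empty_subset _) (Set.empty_subset _)
    (Set.disjoint_empty _)
  rw [Set.union_empty] at h
  linarith

/-- Finite partitions by a function to a type `κ`. -/
lemma AddOn.sum_fiber (hm : AddOn C m) {κ : Type*} (f : X → κ) (s : Finset κ)
    (hf : ∀ k, CO (C ∩ f ⁻¹' {k})) :
    m (C ∩ f ⁻¹' (s : Set κ)) = ∑ k ∈ s, m (C ∩ f ⁻¹' {k}) := by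
  classical
  have hs : ∀ s : Finset κ, C ∩ f ⁻¹' (s : Set κ) = ⋃ k ∈ s, C ∩ f ⁻¹' {k} := by
    intro s
    ext x
    simp
  induction s using Finset.induction_on with
  | empty => simp [hm.empty]
  | insert k s hk ih =>
    rw [Finset.sum_insert hk, ← ih]
    have h1 : C ∩ f ⁻¹' ((insert k s : Finset κ) : Set κ) =
        (C ∩ f ⁻¹' {k}) ∪ (C ∩ f ⁻¹' (s : Set κ)) := by
      ext x
      simp only [Finset.coe_insert, Set.mem_inter_iff, Set.mem_preimage, Set.mem_insert_iff,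
        Set.mem_union, Set.mem_singleton_iff]
      tauto
    rw [h1]
    refine hm _ _ (hf k) ?_ Set.inter_subset_left Set.inter_subset_left ?_
    · rw [hs]
      exact CO.biUnion s fun i _ => hf i
    · rw [Set.disjoint_left]
      rintro x ⟨_, hx⟩ ⟨_, hx'⟩
      rw [Set.mem_preimage, Set.mem_singleton_iff] at hx
      rw [Set.mem_preimage, hx] at hx'
      exact hk hx'

/-- The membership pattern. -/
noncomputable def pat {ι : Type*} (A : ι → Set X) (x : X) (i : ι) : Bool := by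
  classical
  exact decide (x ∈ A i)

lemma pat_eq {ι : Type*} {A : ι → Set X} {x : X} {i : ι} : pat A x i = true ↔ x ∈ A i := by
  classical
  simp [pat]

lemma pat_co [T2Space X] (hC : CO C) {ι : Type*} [Finite ι] {A : ι → Set X}
    (hA : ∀ i, CO (A i)) (σ : ι → Bool) : CO (C ∩ pat A ⁻¹' {σ}) := by
  classical
  have h1 : C ∩ pat A ⁻¹' {σ} = C ∩ ⋂ i, (if σ i = true then C ∩ A i else C \ A i) := by
    ext x
    simp only [Set.mem_inter_iff, Set.mem_preimage, Set.mem_singleton_iff, Set.mem_iInter]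
    refine and_congr_right fun hx => ?_
    rw [funext_iff]
    refine forall_congr' fun i => ?_
    by_cases h : σ i = true
    · rw [if_pos h, h, pat_eq]
      exact ⟨fun h => ⟨hx, h⟩, fun h => h.2⟩
    · rw [if_neg h]
      have h2 : σ i = false := by simpa using h
      rw [h2]
      constructor
      · intro h3
        exact ⟨hx, fun h4 => by rw [pat_eq.2 h4] at h3; exact Bool.noConfusion h3⟩
      · intro h3
        by_contra h4
        have h5 : pat A x i = true := by simpa using h4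
        exact h3.2 (pat_eq.1 h5)
  have h2 : ∀ i, CO (if σ i = true then C ∩ A i else C \ A i) := by
    intro i
    split_ifs
    · exact hC.inter (hA i)
    · exact hC.diff (hA i)
  rw [h1]
  constructor
  · exact hC.1.inter_right (isClosed_iInter fun i => (h2 i).1.isClosed)
  · exact hC.2.inter (isOpen_iInter_of_finite fun i => (h2 i).2)

end one

section two

variable {Z Z' : Type*} [TopologicalSpace Z] [TopologicalSpace Z']

/-- A non-negative bi-additive function on the compact open rectangles contained in `D`. -/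
structure BiM (D : Set (Z × Z')) (M : Set Z → Set Z' → ℝ) : Prop where
  nonneg : ∀ C C', CO C → CO C' → C ×ˢ C' ⊆ D → 0 ≤ M C C'
  addL : ∀ A B C', CO A → CO B → CO C' → (A ∪ B) ×ˢ C' ⊆ D → Disjoint A B →
    M (A ∪ B) C' = M A C' + M B C'
  addR : ∀ C A B, CO C → CO A → CO B → C ×ˢ (A ∪ B) ⊆ D → Disjoint A B →
    M C (A ∪ B) = M C A + M C B

variable {D : Set (Z × Z')} {M : Set Z → Set Z' → ℝ}

lemma BiM.onL (hM : BiM D M) {C : Set Z} {C' : Set Z'} (hC' : CO C') (h : C ×ˢ C' ⊆ D) :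
    AddOn C (fun A => M A C') := by
  intro A B hA hB hAC hBC hAB
  exact hM.addL A B C' hA hB hC'
    ((Set.prod_mono (Set.union_subset hAC hBC) (subset_refl _)).trans h) hAB

lemma BiM.onR (hM : BiM D M) {C : Set Z} {C' : Set Z'} (hC : CO C) (h : C ×ˢ C' ⊆ D) :
    AddOn C' (fun A => M C A) := by
  intro A B hA hB hAC hBC hAB
  exact hM.addR C A B hC hA hB
    ((Set.prod_mono (subset_refl _) (Set.union_subset hAC hBC)).trans h) hAB

lemma BiM.emptyL (hM : BiM D M) {C' : Set Z'} (hC' : CO C') : M ∅ C' = 0 :=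
  (hM.onL (C := ∅) hC' (by rw [Set.empty_prod]; exact Set.empty_subset _)).empty

lemma BiM.emptyR (hM : BiM D M) {C : Set Z} (hC : CO C) : M C ∅ = 0 :=
  (hM.onR (C' := ∅) hC (by rw [Set.prod_empty]; exact Set.empty_subset _)).empty

variable [T2Space Z] [T2Space Z']

lemma fiber_co {X κ : Type*} [TopologicalSpace X] {C : Set X} {f : X → κ} (hC : CO C)
    (hf : ∀ k, CO (C ∩ f ⁻¹' {k})) (s : Finset κ) : CO (C ∩ f ⁻¹' (s : Set κ)) := by
  have hs : C ∩ f ⁻¹' (s : Set κ) = ⋃ k ∈ s, C ∩ f ⁻¹' {k} := by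
    ext x
    simp
  rw [hs]
  exact CO.biUnion s fun i _ => hf i

lemma BiM.sum_fiber (hM : BiM D M) {C : Set Z} {C' : Set Z'} (hC : CO C) (hC' : CO C')
    (h : C ×ˢ C' ⊆ D) {κ κ' : Type*} (f : Z → κ) (f' : Z' → κ')
    (hf : ∀ k, CO (C ∩ f ⁻¹' {k})) (hf' : ∀ k, CO (C' ∩ f' ⁻¹' {k})) (s : Finset κ)
    (s' : Finset κ') : M (C ∩ f ⁻¹' (s : Set κ)) (C' ∩ f' ⁻¹' (s' : Set κ')) =
      ∑ k ∈ s, ∑ k' ∈ s', M (C ∩ f ⁻¹' {k}) (C' ∩ f' ⁻¹' {k'}) := by
  have h1 := fiber_co hC' hf' s'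
  have h2 : C ×ˢ (C' ∩ f' ⁻¹' (s' : Set κ')) ⊆ D :=
    (Set.prod_mono (subset_refl _) Set.inter_subset_left).trans h
  have h3 := (hM.onL h1 h2).sum_fiber f s hf
  refine h3.trans ?_
  refine Finset.sum_congr rfl fun k _ => ?_
  have h4 : (C ∩ f ⁻¹' {k}) ×ˢ C' ⊆ D :=
    (Set.prod_mono Set.inter_subset_left (subset_refl _)).trans h
  exact (hM.onR (hf k) h4).sum_fiber f' s' hf'

/-- Disjoint rectangles in a rectangle. -/
lemma BiM.pack_one (hM : BiM D M) {C : Set Z} {C' : Set Z'} (hC : CO C) (hC' : CO C')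
    (h : C ×ˢ C' ⊆ D) {ι : Type*} [Fintype ι] (A : ι → Set Z) (A' : ι → Set Z')
    (hA : ∀ i, CO (A i)) (hA' : ∀ i, CO (A' i)) (hAC : ∀ i, A i ⊆ C) (hAC' : ∀ i, A' i ⊆ C')
    (hd : ∀ i j, i ≠ j → Disjoint (A i ×ˢ A' i) (A j ×ˢ A' j)) :
    ∑ i, M (A i) (A' i) ≤ M C C' := by
  classical
  have hf := pat_co hC hA
  have hf' := pat_co hC' hA'
  set m : (ι → Bool) → (ι → Bool) → ℝ := fun σ σ' =>
    M (C ∩ pat A ⁻¹' {σ}) (C' ∩ pat A' ⁻¹' {σ'}) with hm
  have hm0 : ∀ σ σ', 0 ≤ m σ σ' := fun σ σ' => hM.nonneg _ _ (hf σ) (hf' σ')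
    ((Set.prod_mono Set.inter_subset_left Set.inter_subset_left).trans h)
  have h1 : ∀ i, M (A i) (A' i) = ∑ σ, ∑ σ', if σ i = true ∧ σ' i = true then m σ σ' else 0 := by
    intro i
    have e1 : A i = C ∩ pat A ⁻¹' (((Finset.univ.filter fun σ : ι → Bool => σ i = true) :
        Finset (ι → Bool)) : Set (ι → Bool)) := by
      ext x
      simp only [Set.mem_inter_iff, Set.mem_preimage, Finset.coe_filter, Finset.mem_univ, true_and,
        Set.mem_setOf_eq, pat_eq]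
      exact ⟨fun hx => ⟨hAC i hx, hx⟩, fun hx => hx.2⟩
    have e2 : A' i = C' ∩ pat A' ⁻¹' (((Finset.univ.filter fun σ : ι → Bool => σ i = true) :
        Finset (ι → Bool)) : Set (ι → Bool)) := by
      ext x
      simp only [Set.mem_inter_iff, Set.mem_preimage, Finset.coe_filter, Finset.mem_univ, true_and,
        Set.mem_setOf_eq, pat_eq]
      exact ⟨fun hx => ⟨hAC' i hx, hx⟩, fun hx => hx.2⟩
    conv_lhs => rw [e1, e2]
    rw [hM.sum_fiber hC hC' h _ _ hf hf', Finset.sum_filter]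
    refine Finset.sum_congr rfl fun σ _ => ?_
    by_cases hσ : σ i = true
    · rw [if_pos hσ, Finset.sum_filter]
      refine Finset.sum_congr rfl fun σ' _ => ?_
      simp only [hσ, true_and]
      rfl
    · rw [if_neg hσ]
      simp only [hσ, false_and, if_false, Finset.sum_const_zero]
      simp
  have h2 : M C C' = ∑ σ, ∑ σ', m σ σ' := by
    have h3 := hM.sum_fiber hC hC' h (pat A) (pat A') hf hf' Finset.univ Finset.univ
    rw [Finset.coe_univ, Set.preimage_univ, Set.preimage_univ, Set.inter_univ,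
      Set.inter_univ] at h3
    exact h3
  rw [h2]
  simp only [h1]
  rw [Finset.sum_comm]
  refine Finset.sum_le_sum fun σ _ => ?_
  rw [Finset.sum_comm]
  refine Finset.sum_le_sum fun σ' _ => ?_
  by_cases h0 : m σ σ' = 0
  · rw [h0]
    simp
  have hne : (C ∩ pat A ⁻¹' {σ}).Nonempty ∧ (C' ∩ pat A' ⁻¹' {σ'}).Nonempty := by
    constructor
    · by_contra hc
      rw [Set.not_nonempty_iff_eq_empty] at hc
      exact h0 (by simp only [hm]; rw [hc]; exact hM.emptyL (hf' σ'))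
    · by_contra hc
      rw [Set.not_nonempty_iff_eq_empty] at hc
      exact h0 (by simp only [hm]; rw [hc]; exact hM.emptyR (hf σ))
  obtain ⟨⟨x, hxC, hx⟩, x', hxC', hx'⟩ := hne
  rw [Set.mem_preimage, Set.mem_singleton_iff] at hx hx'
  have hcard : (Finset.univ.filter fun i => σ i = true ∧ σ' i = true).card ≤ 1 := by
    rw [Finset.card_le_one]
    intro i hi j hj
    rw [Finset.mem_filter] at hi hj
    by_contra hij
    have hi' : (x, x') ∈ A i ×ˢ A' i :=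
      ⟨pat_eq.1 (by rw [hx]; exact hi.2.1), pat_eq.1 (by rw [hx']; exact hi.2.2)⟩
    have hj' : (x, x') ∈ A j ×ˢ A' j :=
      ⟨pat_eq.1 (by rw [hx]; exact hj.2.1), pat_eq.1 (by rw [hx']; exact hj.2.2)⟩
    exact Set.disjoint_left.1 (hd i j hij) hi' hj'
  rw [← Finset.sum_filter, Finset.sum_const, nsmul_eq_mul]
  calc ((Finset.univ.filter fun i => σ i = true ∧ σ' i = true).card : ℝ) * m σ σ'
      ≤ 1 * m σ σ' := mul_le_mul_of_nonneg_right (by exact_mod_cast hcard) (hm0 σ σ')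
    _ = m σ σ' := one_mul _

lemma BiM.mono (hM : BiM D M) {A C : Set Z} {A' C' : Set Z'} (hC : CO C) (hC' : CO C')
    (h : C ×ˢ C' ⊆ D) (hA : CO A) (hA' : CO A') (hAC : A ⊆ C) (hAC' : A' ⊆ C') :
    M A A' ≤ M C C' := by
  have h1 := hM.pack_one hC hC' h (ι := Unit) (fun _ => A) (fun _ => A') (fun _ => hA)
    (fun _ => hA') (fun _ => hAC) (fun _ => hAC') (fun i j hij => absurd rfl hij)
  simpa using h1

/-- A function which is zero locally is zero. -/
theorem BiM.rec_all (hM : BiM D M) {C : Set Z} {C' : Set Z'} (hC : CO C) (hC' : CO C')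
    (h : C ×ˢ C' ⊆ D)
    (hloc : ∀ x ∈ C ×ˢ C', ∃ (A : Set Z) (A' : Set Z'), CO A ∧ CO A' ∧ A ×ˢ A' ⊆ D ∧
      x ∈ A ×ˢ A' ∧ M A A' = 0) : M C C' = 0 := by
  classical
  choose! A A' hA hA' hAD hx hA0 using hloc
  obtain ⟨F, hcov⟩ := (hC.1.prod hC'.1).elim_nhds_subcover' (fun x _ => A x ×ˢ A' x)
    (fun x hx' => ((hA x hx').2.prod (hA' x hx').2).mem_nhds (hx x hx'))
  have hFA : ∀ p : F, CO (A p.1.1) := fun p => hA _ p.1.2
  have hFA' : ∀ p : F, CO (A' p.1.1) := fun p => hA' _ p.1.2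
  have h3 := hM.sum_fiber hC hC' h (pat fun p : F => A p.1.1) (pat fun p : F => A' p.1.1)
    (pat_co hC hFA) (pat_co hC' hFA') Finset.univ Finset.univ
  rw [Finset.coe_univ, Set.preimage_univ, Set.preimage_univ, Set.inter_univ,
    Set.inter_univ] at h3
  rw [h3]
  refine Finset.sum_eq_zero fun σ _ => Finset.sum_eq_zero fun σ' _ => ?_
  have hc1 := pat_co hC hFA σ
  have hc2 := pat_co hC' hFA' σ'
  by_cases h5 : (C ∩ pat (fun p : F => A p.1.1) ⁻¹' {σ}).Nonempty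
  · by_cases h6 : (C' ∩ pat (fun p : F => A' p.1.1) ⁻¹' {σ'}).Nonempty
    · obtain ⟨y, hy, hyσ⟩ := h5
      obtain ⟨y', hy', hyσ'⟩ := h6
      have h7 := hcov (a := (y, y')) ⟨hy, hy'⟩
      rw [Set.mem_iUnion₂] at h7
      obtain ⟨p, hp, hpy⟩ := h7
      rw [Set.mem_preimage, Set.mem_singleton_iff] at hyσ hyσ'
      have e1 : σ ⟨p, hp⟩ = true := by
        rw [← hyσ]
        exact pat_eq.2 hpy.1
      have e2 : σ' ⟨p, hp⟩ = true := by
        rw [← hyσ']
        exact pat_eq.2 hpy.2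
      refine le_antisymm ?_ (hM.nonneg _ _ hc1 hc2
        ((Set.prod_mono Set.inter_subset_left Set.inter_subset_left).trans h))
      rw [← hA0 p.1 p.2]
      refine hM.mono (hA _ p.2) (hA' _ p.2) (hAD _ p.2) hc1 hc2 ?_ ?_
      · rintro z ⟨_, hz⟩
        rw [Set.mem_preimage, Set.mem_singleton_iff] at hz
        have h8 : pat (fun p : F => A p.1.1) z ⟨p, hp⟩ = true := by rw [hz]; exact e1
        exact pat_eq.1 h8
      · rintro z ⟨_, hz⟩
        rw [Set.mem_preimage, Set.mem_singleton_iff] at hz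
        have h8 : pat (fun p : F => A' p.1.1) z ⟨p, hp⟩ = true := by rw [hz]; exact e2
        exact pat_eq.1 h8
    · rw [Set.not_nonempty_iff_eq_empty] at h6
      rw [h6]
      exact hM.emptyR hc1
  · rw [Set.not_nonempty_iff_eq_empty] at h5
    rw [h5]
    exact hM.emptyL hc2

end two

section group

variable {Z Z' Γ : Type*} [TopologicalSpace Z] [TopologicalSpace Z'] [T2Space Z] [T2Space Z']
  [Group Γ] [MulAction Γ Z] [MulAction Γ Z'] [ContinuousConstSMul Γ Z] [ContinuousConstSMul Γ Z']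
  {D : Set (Z × Z')} {M : Set Z → Set Z' → ℝ}

/-- Packing modulo `Γ`. -/
theorem packing (hM : BiM D M)
    (inv : ∀ (g : Γ) C C', CO C → CO C' → C ×ˢ C' ⊆ D → M (g • C) (g • C') = M C C')
    {J : Type*} [Fintype J] (K : J → Set Z) (K' : J → Set Z') (hK : ∀ j, CO (K j))
    (hK' : ∀ j, CO (K' j)) (hKD : ∀ j, K j ×ˢ K' j ⊆ D)
    {ι : Type*} [Fintype ι] (C : ι → Set Z) (C' : ι → Set Z') (hC : ∀ i, CO (C i))
    (hC' : ∀ i, CO (C' i)) (hCD : ∀ i, C i ×ˢ C' i ⊆ D)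
    (hcov : ∀ i, ∀ x ∈ C i ×ˢ C' i, ∃ (g : Γ) (j : J), (g • x.1, g • x.2) ∈ K j ×ˢ K' j)
    (hdis : ∀ i i' (g : Γ) x, x ∈ C i ×ˢ C' i → (g • x.1, g • x.2) ∈ C i' ×ˢ C' i' →
      i = i' ∧ (g • x.1, g • x.2) = x) :
    ∑ i, M (C i) (C' i) ≤ ∑ j, M (K j) (K' j) := by
  classical
  -- a finite set of translates which covers
  have hfin : ∀ i, ∃ F : Finset (Γ × J), C i ×ˢ C' i ⊆
      ⋃ p ∈ F, (p.1⁻¹ • K p.2) ×ˢ (p.1⁻¹ • K' p.2) := by
    intro i
    refine ((hC i).1.prod (hC' i).1).elim_finite_subcover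
      (fun p : Γ × J => (p.1⁻¹ • K p.2) ×ˢ (p.1⁻¹ • K' p.2)) (fun p =>
        (((hK p.2).2.smul p.1⁻¹).prod ((hK' p.2).2.smul p.1⁻¹))) ?_
    intro x hx
    obtain ⟨g, j, h⟩ := hcov i x hx
    refine Set.mem_iUnion.2 ⟨(g, j), ?_⟩
    refine ⟨?_, ?_⟩
    · rw [Set.mem_inv_smul_set_iff]
      exact h.1
    · rw [Set.mem_inv_smul_set_iff]
      exact h.2
  choose F0 hF0 using hfin
  set F : Finset (Γ × J) := Finset.univ.biUnion F0 with hF
  let A : F → Set Z := fun p => p.1.1⁻¹ • K p.1.2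
  let A' : F → Set Z' := fun p => p.1.1⁻¹ • K' p.1.2
  have hA : ∀ p, CO (A p) := fun p => (hK _).smul _
  have hA' : ∀ p, CO (A' p) := fun p => (hK' _).smul _
  -- the pieces
  let a : ι → (F → Bool) → Set Z := fun i σ => C i ∩ pat A ⁻¹' {σ}
  let a' : ι → (F → Bool) → Set Z' := fun i σ => C' i ∩ pat A' ⁻¹' {σ}
  have ha : ∀ i σ, CO (a i σ) := fun i σ => pat_co (hC i) hA σ
  have ha' : ∀ i σ, CO (a' i σ) := fun i σ => pat_co (hC' i) hA' σ
  have haD : ∀ i σ σ', a i σ ×ˢ a' i σ' ⊆ D := fun i σ σ' =>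
    (Set.prod_mono Set.inter_subset_left Set.inter_subset_left).trans (hCD i)
  have h1 : ∀ i, M (C i) (C' i) = ∑ σ, ∑ σ', M (a i σ) (a' i σ') := by
    intro i
    have h3 := hM.sum_fiber (hC i) (hC' i) (hCD i) (pat A) (pat A') (pat_co (hC i) hA)
      (pat_co (hC' i) hA') Finset.univ Finset.univ
    rw [Finset.coe_univ, Set.preimage_univ, Set.preimage_univ, Set.inter_univ,
      Set.inter_univ] at h3
    exact h3
  let T : Type _ := ι × (F → Bool) × (F → Bool)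
  let pc : T → Prop := fun t => ∃ p, t.2.1 p = true ∧ t.2.2 p = true
  let B : J → T → Set Z := fun j t =>
    {z | ∃ h : pc t, h.choose.1.2 = j ∧ z ∈ h.choose.1.1 • a t.1 t.2.1}
  let B' : J → T → Set Z' := fun j t =>
    {z | ∃ h : pc t, h.choose.1.2 = j ∧ z ∈ h.choose.1.1 • a' t.1 t.2.2}
  have hBe : ∀ j t (h : pc t), h.choose.1.2 = j → B j t = h.choose.1.1 • a t.1 t.2.1 := by
    intro j t h hj
    ext z
    exact ⟨fun hz => hz.2.2, fun hz => ⟨h, hj, hz⟩⟩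
  have hBe' : ∀ j t (h : pc t), h.choose.1.2 = j → B' j t = h.choose.1.1 • a' t.1 t.2.2 := by
    intro j t h hj
    ext z
    exact ⟨fun hz => hz.2.2, fun hz => ⟨h, hj, hz⟩⟩
  have hBn : ∀ j t, ¬ (∃ h : pc t, h.choose.1.2 = j) → B j t = ∅ := by
    intro j t h
    ext z
    simp only [Set.mem_empty_iff_false, iff_false]
    rintro ⟨h1, h2, h3⟩
    exact h ⟨h1, h2⟩
  have hBn' : ∀ j t, ¬ (∃ h : pc t, h.choose.1.2 = j) → B' j t = ∅ := by
    intro j t h
    ext z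
    simp only [Set.mem_empty_iff_false, iff_false]
    rintro ⟨h1, h2, h3⟩
    exact h ⟨h1, h2⟩
  have hBco : ∀ j t, CO (B j t) := by
    intro j t
    by_cases h : ∃ h : pc t, h.choose.1.2 = j
    · obtain ⟨h, hj⟩ := h
      rw [hBe j t h hj]
      exact (ha _ _).smul _
    · rw [hBn j t h]
      exact CO.empty
  have hBco' : ∀ j t, CO (B' j t) := by
    intro j t
    by_cases h : ∃ h : pc t, h.choose.1.2 = j
    · obtain ⟨h, hj⟩ := h
      rw [hBe' j t h hj]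
      exact (ha' _ _).smul _
    · rw [hBn' j t h]
      exact CO.empty
  have hBK : ∀ j t, B j t ⊆ K j := by
    rintro j t z ⟨h, hj, hz⟩
    rw [← hj]
    obtain ⟨y, hy, rfl⟩ := hz
    have h5 : y ∈ A h.choose := pat_eq.1 (by
      have h6 : pat A y = t.2.1 := hy.2
      rw [h6]
      exact h.choose_spec.1)
    exact Set.mem_inv_smul_set_iff.1 h5
  have hBK' : ∀ j t, B' j t ⊆ K' j := by
    rintro j t z ⟨h, hj, hz⟩
    rw [← hj]
    obtain ⟨y, hy, rfl⟩ := hz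
    have h5 : y ∈ A' h.choose := pat_eq.1 (by
      have h6 : pat A' y = t.2.2 := hy.2
      rw [h6]
      exact h.choose_spec.2)
    exact Set.mem_inv_smul_set_iff.1 h5
  have hBd : ∀ j t t', t ≠ t' → Disjoint (B j t ×ˢ B' j t) (B j t' ×ˢ B' j t') := by
    intro j t t' hne
    rw [Set.disjoint_left]
    rintro ⟨x, x'⟩ ⟨⟨h, hj, y, hy, hyx⟩, ⟨_, _, y', hy', hyx'⟩⟩
      ⟨⟨k, hk, z, hz, hzx⟩, ⟨_, _, z', hz', hzx'⟩⟩
    simp only at hyx hyx' hzx hzx' hy hy' hz hz'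
    set g := h.choose.1.1 with hg
    set l := k.choose.1.1 with hl
    have e1 : (l⁻¹ * g) • y = z := by
      rw [mul_smul, hyx, ← hzx, inv_smul_smul]
    have e2 : (l⁻¹ * g) • y' = z' := by
      rw [mul_smul, hyx', ← hzx', inv_smul_smul]
    obtain ⟨h3, h4⟩ := hdis t.1 t'.1 (l⁻¹ * g) (y, y') ⟨hy.1, hy'.1⟩ (by
      rw [e1, e2]
      exact ⟨hz.1, hz'.1⟩)
    have h4a : (l⁻¹ * g) • y = y := congrArg Prod.fst h4
    have h4b : (l⁻¹ * g) • y' = y' := congrArg Prod.snd h4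
    rw [h4a] at e1
    rw [h4b] at e2
    apply hne
    have h6 : pat A y = t.2.1 := hy.2
    have h6' : pat A z = t'.2.1 := hz.2
    have h7 : pat A' y' = t.2.2 := hy'.2
    have h7' : pat A' z' = t'.2.2 := hz'.2
    refine Prod.ext h3 (Prod.ext ?_ ?_)
    · rw [← h6, ← h6', e1]
    · rw [← h7, ← h7', e2]
  have h2 : ∀ j, ∑ t, M (B j t) (B' j t) ≤ M (K j) (K' j) := fun j =>
    hM.pack_one (hK j) (hK' j) (hKD j) (B j) (B' j) (hBco j) (hBco' j) (hBK j) (hBK' j) (hBd j)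
  have h3 : ∀ t : T, M (a t.1 t.2.1) (a' t.1 t.2.2) = ∑ j, M (B j t) (B' j t) := by
    intro t
    by_cases h : pc t
    · rw [Finset.sum_eq_single h.choose.1.2]
      · rw [hBe _ t h rfl, hBe' _ t h rfl, inv _ _ _ (ha _ _) (ha' _ _) (haD _ _ _)]
      · intro j _ hj
        rw [hBn j t (by
          rintro ⟨h', hj'⟩
          exact hj hj'.symm)]
        exact hM.emptyL (hBco' j t)
      · intro h'
        exact absurd (Finset.mem_univ _) h'
    · have h4 : ∀ j, M (B j t) (B' j t) = 0 := by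
        intro j
        rw [hBn j t (fun ⟨h', _⟩ => h h')]
        exact hM.emptyL (hBco' j t)
      rw [Finset.sum_congr rfl fun j _ => h4 j, Finset.sum_const_zero]
      -- one of the two factors is empty
      by_cases h5 : (a t.1 t.2.1).Nonempty
      · by_cases h6 : (a' t.1 t.2.2).Nonempty
        · exfalso
          obtain ⟨y, hy⟩ := h5
          obtain ⟨y', hy'⟩ := h6
          have h7 := hF0 t.1 (a := (y, y')) ⟨hy.1, hy'.1⟩
          rw [Set.mem_iUnion₂] at h7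
          obtain ⟨p, hp, hpy⟩ := h7
          have hpF : p ∈ F := Finset.mem_biUnion.2 ⟨t.1, Finset.mem_univ _, hp⟩
          apply h
          refine ⟨⟨p, hpF⟩, ?_, ?_⟩
          · have h6 : pat A y = t.2.1 := hy.2
            rw [← h6]
            exact pat_eq.2 hpy.1
          · have h6 : pat A' y' = t.2.2 := hy'.2
            rw [← h6]
            exact pat_eq.2 hpy.2
        · rw [Set.not_nonempty_iff_eq_empty] at h6
          rw [h6]
          exact hM.emptyR (ha _ _)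
      · rw [Set.not_nonempty_iff_eq_empty] at h5
        rw [h5]
        exact hM.emptyL (ha' _ _)
  calc ∑ i, M (C i) (C' i) = ∑ t : T, M (a t.1 t.2.1) (a' t.1 t.2.2) := by
        rw [Fintype.sum_prod_type]
        refine Finset.sum_congr rfl fun i _ => ?_
        rw [h1 i, Fintype.sum_prod_type]
    _ = ∑ t : T, ∑ j, M (B j t) (B' j t) := Finset.sum_congr rfl fun t _ => h3 t
    _ = ∑ j, ∑ t : T, M (B j t) (B' j t) := Finset.sum_comm
    _ ≤ ∑ j, M (K j) (K' j) := Finset.sum_le_sum fun j _ => h2 j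

/-- Recurrence: a wandering rectangle with infinitely many translates in different places of
`Γ \ D` has mass zero. -/
theorem rec_zero (hM : BiM D M)
    (inv : ∀ (g : Γ) C C', CO C → CO C' → C ×ˢ C' ⊆ D → M (g • C) (g • C') = M C C')
    {J : Type*} [Fintype J] (K : J → Set Z) (K' : J → Set Z') (hK : ∀ j, CO (K j))
    (hK' : ∀ j, CO (K' j)) (hKD : ∀ j, K j ×ˢ K' j ⊆ D)
    (hcov : ∀ x ∈ D, ∃ (g : Γ) (j : J), (g • x.1, g • x.2) ∈ K j ×ˢ K' j)
    (T : ℕ → Z ≃ₜ Z) (T' : ℕ → Z' ≃ₜ Z') (hTg : ∀ n (g : Γ) z, T n (g • z) = g • T n z)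
    (hTg' : ∀ n (g : Γ) z, T' n (g • z) = g • T' n z)
    (hTD : ∀ n x, x ∈ D → (T n x.1, T' n x.2) ∈ D)
    (hTM : ∀ n C C', CO C → CO C' → C ×ˢ C' ⊆ D → M (T n '' C) (T' n '' C') = M C C')
    {X : Type*} (Φ : Z × Z' → X) (hΦ : ∀ (g : Γ) x, x ∈ D → Φ (g • x.1, g • x.2) = Φ x)
    (t : ℕ → X → X) (hΦT : ∀ n x, x ∈ D → Φ (T n x.1, T' n x.2) = t n (Φ x))
    (V : Set X) (hV : ∀ n m, n ≠ m → Disjoint (t n '' V) (t m '' V))
    {C : Set Z} {C' : Set Z'} (hC : CO C) (hC' : CO C') (hCD : C ×ˢ C' ⊆ D)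
    (hCV : ∀ x ∈ C ×ˢ C', Φ x ∈ V)
    (hw : ∀ (g : Γ) x, x ∈ C ×ˢ C' → (g • x.1, g • x.2) ∈ C ×ˢ C' →
      (g • x.1, g • x.2) = x) :
    M C C' = 0 := by
  have hco : ∀ n, CO (T n '' C) := fun n => ⟨hC.1.image (T n).continuous,
    (T n).isOpenMap _ hC.2⟩
  have hco' : ∀ n, CO (T' n '' C') := fun n => ⟨hC'.1.image (T' n).continuous,
    (T' n).isOpenMap _ hC'.2⟩
  have hTCD : ∀ n, (T n '' C) ×ˢ (T' n '' C') ⊆ D := by
    rintro n ⟨_, _⟩ ⟨⟨y, hy, rfl⟩, ⟨y', hy', rfl⟩⟩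
    exact hTD n (y, y') (hCD ⟨hy, hy'⟩)
  have key : ∀ N : ℕ, (N : ℝ) * M C C' ≤ ∑ j, M (K j) (K' j) := by
    intro N
    have h1 := packing (Γ := Γ) hM inv K K' hK hK' hKD (ι := Fin N) (fun i => T i '' C)
      (fun i => T' i '' C') (fun i => hco i) (fun i => hco' i) (fun i => hTCD i)
      (fun i x hx => hcov x (hTCD i hx)) (by
        rintro i i' g ⟨_, _⟩ ⟨⟨y, hy, rfl⟩, ⟨y', hy', rfl⟩⟩ ⟨⟨z, hz, hzy⟩, ⟨z', hz', hzy'⟩⟩
        simp only at hzy hzy'
        have hyD := hCD (a := (y, y')) ⟨hy, hy'⟩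
        have hzD := hCD (a := (z, z')) ⟨hz, hz'⟩
        have e1 : t i' (Φ (z, z')) = t i (Φ (y, y')) := by
          rw [← hΦT i' _ hzD, ← hΦT i _ hyD]
          simp only
          rw [hzy, hzy']
          exact hΦ g (T i y, T' i y') (hTD i _ hyD)
        have e2 : i = i' := by
          by_contra hne
          refine Set.disjoint_left.1 (hV i i' fun h => hne (Fin.ext h))
            ⟨_, hCV (y, y') ⟨hy, hy'⟩, rfl⟩ ?_
          rw [← e1]
          exact ⟨_, hCV (z, z') ⟨hz, hz'⟩, rfl⟩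
        subst e2
        have h5 := hw g (y, y') ⟨hy, hy'⟩ (by
          rw [← hTg] at hzy
          rw [← hTg'] at hzy'
          rw [← (T i).injective hzy, ← (T' i).injective hzy']
          exact ⟨hz, hz'⟩)
        have h5a : g • y = y := congrArg Prod.fst h5
        have h5b : g • y' = y' := congrArg Prod.snd h5
        refine ⟨rfl, Prod.ext ?_ ?_⟩
        · show g • T i y = T i y
          rw [← hTg, h5a]
        · show g • T' i y' = T' i y'
          rw [← hTg', h5b])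
    have h2 : ∀ i : Fin N, M (T i '' C) (T' i '' C') = M C C' := fun i =>
      hTM i C C' hC hC' hCD
    rw [Finset.sum_congr rfl fun i _ => h2 i, Finset.sum_const, Finset.card_univ,
      Fintype.card_fin, nsmul_eq_mul] at h1
    exact h1
  refine le_antisymm ?_ (hM.nonneg _ _ hC hC' hCD)
  by_contra hpos
  rw [not_le] at hpos
  obtain ⟨N, hN⟩ := exists_nat_gt ((∑ j, M (K j) (K' j)) / M C C')
  rw [div_lt_iff₀ hpos] at hN
  exact absurd (key N) (not_le.2 hN)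

/-- The data of a recurrence: homeomorphisms of `Z × Z'` commuting with `Γ`, preserving `D` and
`M`, which act on the values of `Φ` by `t n`, and `t n '' V` are pairwise disjoint. -/
structure RecD (Γ : Type*) [Group Γ] [MulAction Γ Z] [MulAction Γ Z'] (D : Set (Z × Z'))
    (M : Set Z → Set Z' → ℝ) {X : Type*} (Φ : Z × Z' → X) (V : Set X) where
  T : ℕ → Z ≃ₜ Z
  T' : ℕ → Z' ≃ₜ Z'
  t : ℕ → X → X
  smul : ∀ n (g : Γ) z, T n (g • z) = g • T n z
  smul' : ∀ n (g : Γ) z, T' n (g • z) = g • T' n z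
  mem : ∀ n x, x ∈ D → (T n x.1, T' n x.2) ∈ D
  inv : ∀ n C C', CO C → CO C' → C ×ˢ C' ⊆ D → M (T n '' C) (T' n '' C') = M C C'
  map : ∀ n x, x ∈ D → Φ (T n x.1, T' n x.2) = t n (Φ x)
  disj : ∀ n m, n ≠ m → Disjoint (t n '' V) (t m '' V)

/-- [C-REC] `M` vanishes on the rectangles of `D` on which `Φ ≠ q`. -/
theorem rec_main {X : Type*} [TopologicalSpace X] (hM : BiM D M) (hDo : IsOpen D)
    (hbZ : ∀ z, ∀ O ∈ 𝓝 z, ∃ A : Set Z, CO A ∧ z ∈ A ∧ A ⊆ O)
    (hbZ' : ∀ z, ∀ O ∈ 𝓝 z, ∃ A : Set Z', CO A ∧ z ∈ A ∧ A ⊆ O)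
    (inv : ∀ (g : Γ) C C', CO C → CO C' → C ×ˢ C' ⊆ D → M (g • C) (g • C') = M C C')
    {J : Type*} [Fintype J] (K : J → Set Z) (K' : J → Set Z') (hK : ∀ j, CO (K j))
    (hK' : ∀ j, CO (K' j)) (hKD : ∀ j, K j ×ˢ K' j ⊆ D)
    (hcov : ∀ x ∈ D, ∃ (g : Γ) (j : J), (g • x.1, g • x.2) ∈ K j ×ˢ K' j)
    (hw : ∀ x ∈ D, ∃ W ∈ 𝓝 x, ∀ (g : Γ) y, y ∈ W → (g • y.1, g • y.2) ∈ W →
      (g • y.1, g • y.2) = y)
    (Φ : Z × Z' → X) (hΦc : ContinuousOn Φ D)
    (hΦ : ∀ (g : Γ) x, x ∈ D → Φ (g • x.1, g • x.2) = Φ x) (q : X)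
    (hrec : ∀ x ∈ D, Φ x ≠ q → ∃ V ∈ 𝓝 (Φ x), Nonempty (RecD Γ D M Φ V))
    {C : Set Z} {C' : Set Z'} (hC : CO C) (hC' : CO C') (hCD : C ×ˢ C' ⊆ D)
    (hCq : ∀ x ∈ C ×ˢ C', Φ x ≠ q) : M C C' = 0 := by
  refine hM.rec_all hC hC' hCD ?_
  intro x hx
  have hxD := hCD hx
  obtain ⟨V, hV, ⟨R⟩⟩ := hrec x hxD (hCq x hx)
  obtain ⟨W, hW, hWw⟩ := hw x hxD
  have h1 : W ∩ (D ∩ Φ ⁻¹' V) ∈ 𝓝 x := by
    refine Filter.inter_mem hW (Filter.inter_mem (hDo.mem_nhds hxD) ?_)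
    exact (hΦc.continuousAt (hDo.mem_nhds hxD)).preimage_mem_nhds hV
  rw [show x = (x.1, x.2) from rfl, mem_nhds_prod_iff] at h1
  obtain ⟨O, hO, O', hO', hOO⟩ := h1
  obtain ⟨A, hA, hxA, hAO⟩ := hbZ x.1 O hO
  obtain ⟨A', hA', hxA', hAO'⟩ := hbZ' x.2 O' hO'
  have hAA : A ×ˢ A' ⊆ W ∩ (D ∩ Φ ⁻¹' V) := (Set.prod_mono hAO hAO').trans hOO
  refine ⟨A, A', hA, hA', fun y hy => (hAA hy).2.1, ⟨hxA, hxA'⟩, ?_⟩
  exact rec_zero hM inv K K' hK hK' hKD hcov R.T R.T' R.smul R.smul' R.mem R.inv Φ hΦ R.t R.map V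
    R.disj hA hA' (fun y hy => (hAA hy).2.1) (fun y hy => (hAA hy).2.2)
    (fun g y hy hgy => hWw g y (hAA hy).1 (hAA hgy).1)

end group

end Vale.Agent.P092.H684
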