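import Vale.Agent.P092.H684.Prop
import Vale.Agent.P092.H574.Phi
import Vale.Agent.P092.H200.Coc

/-!
P092, Team C, [C-LINE], step (2c): a lattice acts on the pairs of points of `Z` with different base
points so that every point has a wandering neighbourhood (modulo the centre).
-/

set_option linter.all false

open Matrix Topology Projectivization
open scoped LinearAlgebra.Projectivization

namespace Vale.Agent.P092.H684

open Vale.Agent.P092.RC Vale.Agent.P092.H574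
open Vale.Agent.P092.H575 (cg cg_isOpen cg_isCompact cg_basis)

section lift

/-- compact lifts -/
theorem lift_compact {X Y : Type*} [TopologicalSpace X] [TopologicalSpace Y]
    [WeaklyLocallyCompactSpace X] {f : X → Y} (hf : IsOpenMap f) (hs : Function.Surjective f)
    {K : Set Y} (hK : IsCompact K) : ∃ K' : Set X, IsCompact K' ∧ K ⊆ f '' K' := by
  classical
  choose s hs using hs
  choose N hN hN' using fun x : X => exists_compact_mem_nhds x
  obtain ⟨t, ht, hcov⟩ := hK.elim_nhds_subcover (fun y => f '' N (s y)) (fun y hy => by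
    have := hf.image_mem_nhds (hN' (s y))
    rwa [hs] at this)
  refine ⟨⋃ y ∈ t, N (s y), t.isCompact_biUnion fun y _ => hN _, ?_⟩
  intro y hy
  obtain ⟨y', hy', x, hx, rfl⟩ := Set.mem_iUnion₂.1 (hcov hy)
  exact ⟨x, Set.mem_iUnion₂.2 ⟨y', hy', hx⟩, rfl⟩

end lift

section cen

variable {k : Type} [NontriviallyNormedField k]

lemma Rm.sub_one {M : Matrix (Fin 3) (Fin 3) k} (h : Rm M) (s : k) :
    Rm (M - s • (1 : Matrix (Fin 3) (Fin 3) k)) := by
  obtain ⟨r1, r2, r3, r4, r5⟩ := h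
  refine ⟨?_, ?_, ?_, ?_, ?_⟩
  · simp [r1]
  · simp [r2]
  · simp [r3]
  · simp [r4]
  · simp [r5]

/-- an element fixing two points of `Z` with different base points is scalar -/
theorem scal_of {g a b : GG k 2} (h1 : Rm ((a⁻¹).1 * g.1 * a.1)) (h2 : Rm ((b⁻¹).1 * g.1 * b.1))
    (hab : a • (y0 : YY k 2) ≠ b • y0) : ∃ s : k, g.1 = s • (1 : Matrix (Fin 3) (Fin 3) k) := by
  have key : ∀ c : GG k 2, Rm ((c⁻¹).1 * g.1 * c.1) → ∃ (s : k) (ψ : Fin 3 → k),
      ∀ i j, g.1 i j = s * (1 : Matrix (Fin 3) (Fin 3) k) i j + c.1 i 0 * ψ j := by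
    intro c hc
    set s := ((c⁻¹).1 * g.1 * c.1) 1 1 with hs
    have e : (c⁻¹).1 * (g.1 - s • (1 : Matrix (Fin 3) (Fin 3) k)) * c.1 =
        (c⁻¹).1 * g.1 * c.1 - s • (1 : Matrix (Fin 3) (Fin 3) k) := by
      rw [Matrix.mul_sub, Matrix.sub_mul, Matrix.mul_smul, Matrix.mul_one, Matrix.smul_mul,
        inv_mul_val]
    have hR : Rm ((c⁻¹).1 * (g.1 - s • (1 : Matrix (Fin 3) (Fin 3) k)) * c.1) := by
      rw [e]
      exact hc.sub_one s
    obtain ⟨ψ, hψ⟩ := rank_of hR (by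
      rw [e, Matrix.sub_apply, Matrix.smul_apply, Matrix.one_apply_eq, ← hs, smul_eq_mul, mul_one,
        sub_self])
    refine ⟨s, ψ, fun i j => ?_⟩
    rw [← hψ, Matrix.sub_apply, Matrix.smul_apply, smul_eq_mul]
    ring
  obtain ⟨s, ψ, hs⟩ := key a h1
  obtain ⟨s', ψ', hs'⟩ := key b h2
  have hss : s = s' := by
    have e : (s' - s) • (1 : Matrix (Fin 3) (Fin 3) k) =
        Matrix.of fun i j => a.1 i 0 * ψ j - b.1 i 0 * ψ' j := by
      ext i j
      rw [Matrix.smul_apply, smul_eq_mul, Matrix.of_apply]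
      linear_combination hs i j - hs' i j
    have hdet := congrArg Matrix.det e
    rw [Matrix.det_smul, Matrix.det_one, mul_one, Fintype.card_fin, Matrix.det_fin_three] at hdet
    simp only [Matrix.of_apply] at hdet
    have h3 : (s' - s) ^ 3 = 0 := by
      rw [hdet]
      ring
    exact (sub_eq_zero.1 (pow_eq_zero_iff (by norm_num) |>.1 h3)).symm
  subst hss
  have h4 : ∀ i j, a.1 i 0 * ψ j = b.1 i 0 * ψ' j := fun i j => by
    linear_combination hs' i j - hs i j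
  have h5 : ∀ j, ψ j = 0 := by
    intro j
    by_contra hj
    have hj' : ψ' j ≠ 0 := by
      intro h
      apply col_ne a 0
      ext i
      have := h4 i j
      rw [h, mul_zero, mul_eq_zero] at this
      exact this.resolve_right hj
    refine hab (y_eq_of_col (t := ψ' j / ψ j) (div_ne_zero hj' hj) fun i => ?_)
    have := h4 i j
    field_simp
    linear_combination this
  refine ⟨s, ?_⟩
  ext i j
  rw [hs, h5, mul_zero, add_zero, Matrix.smul_apply, smul_eq_mul]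

/-- scalar elements act trivially -/
theorem zact_scal {g : GG k 2} {s : k} (h : g.1 = s • (1 : Matrix (Fin 3) (Fin 3) k))
    (z : YY k 2 × PG k 2) : zact cc g z = z := by
  have hs : s ≠ 0 := by
    rintro rfl
    have h1 : g.1.det = 1 := g.2
    rw [h, zero_smul, Matrix.det_zero] at h1
    exact zero_ne_one h1
  have h1 : ∀ y : YY k 2, g • y = y := by
    intro y
    induction y using Projectivization.ind with
    | h v hv =>
      rw [smul_mk, mk_eq_mk_iff']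
      refine ⟨s, ?_⟩
      show s • v = g.1 *ᵥ v
      rw [h, Matrix.smul_mulVec, Matrix.one_mulVec]
  have h2 : ∀ y : YY k 2, cc g y = 1 := by
    intro y
    rw [H200.Coc.cc_eq, QuotientGroup.eq_one_iff]
    have e : blk g y = s • (1 : Matrix (Fin 2) (Fin 2) k) := by
      rw [H200.Coc.blk_eq, H200.Coc.pp, h1, h, Matrix.mul_smul, Matrix.mul_one, Matrix.smul_mul,
        H200.Coc.sci_mul_sct]
      ext i j
      fin_cases i <;> fin_cases j <;> simp
    rw [center_iff']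
    have e2 : (H200.Coc.bu g y).1 = s • (1 : Matrix (Fin 2) (Fin 2) k) := e
    rw [e2]
    refine ⟨?_, ?_, ?_⟩ <;> simp
  unfold zact
  rw [h1, h2, one_mul]

end cen

section orb

variable {k : Type} [NontriviallyNormedField k] [ProperSpace k] [IsUltrametricDist k]

theorem gl_lc : LocallyCompactSpace (GL (Fin 2) k) :=
  (cg_isCompact (k := k) (n := Fin 2) one_pos).locallyCompactSpace_of_mem_nhds_of_group
    ((cg_isOpen (k := k) (n := Fin 2) one_pos).mem_nhds (Subgroup.one_mem _))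

theorem pg_lc : LocallyCompactSpace (PG k 2) := by
  haveI := gl_lc (k := k)
  infer_instance

/-- the action of `G` on `Z` -/
@[reducible] noncomputable def zma (hG : Geo (cc : GG k 2 → YY k 2 → PG k 2) y0) :
    MulAction (GG k 2) (YY k 2 × PG k 2) where
  smul g z := zact cc g z
  one_smul z := by
    show zact cc 1 z = z
    unfold zact
    rw [one_smul, H200.Coc.cc_one, one_mul]
  mul_smul g h z := by
    show zact cc (g * h) z = zact cc g (zact cc h z)
    unfold zact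
    rw [hG.mul, mul_smul, mul_assoc]

/-- the orbit map of the base point -/
noncomputable def om (a : GG k 2) : YY k 2 × PG k 2 := zact cc a (y0, 1)

lemma zact_mul (hG : Geo (cc : GG k 2 → YY k 2 → PG k 2) y0) (g h : GG k 2)
    (z : YY k 2 × PG k 2) : zact cc (g * h) z = zact cc g (zact cc h z) := by
  unfold zact
  rw [hG.mul, mul_smul, mul_assoc]

lemma om_surj (hG : Geo (cc : GG k 2 → YY k 2 → PG k 2) y0) :
    Function.Surjective (om : GG k 2 → YY k 2 × PG k 2) := by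
  rintro ⟨y, h⟩
  obtain ⟨g, rfl⟩ := hG.surj y
  obtain ⟨p, hp, hph⟩ := hG.lev ((cc g (y0 : YY k 2))⁻¹ * h)
  refine ⟨g * p, ?_⟩
  unfold om zact
  simp only
  rw [hG.mul, mul_smul, hp, hph, mul_one, mul_inv_cancel_left]

lemma zact_cont (hG : Geo (cc : GG k 2 → YY k 2 → PG k 2) y0) :
    Continuous fun p : GG k 2 × (YY k 2 × PG k 2) => zact cc p.1 p.2 := by
  have h1 : Continuous fun p : GG k 2 × (YY k 2 × PG k 2) => p.1 • p.2.1 :=
    hG.cact.comp (continuous_fst.prodMk (continuous_fst.comp continuous_snd))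
  have h2 : Continuous fun p : GG k 2 × (YY k 2 × PG k 2) => cc p.1 p.2.1 :=
    Continuous.comp (g := fun p : GG k 2 × YY k 2 => cc p.1 p.2)
      (f := fun p : GG k 2 × (YY k 2 × PG k 2) => (p.1, p.2.1)) hG.cont
      (continuous_fst.prodMk (continuous_fst.comp continuous_snd))
  exact h1.prodMk (h2.mul (continuous_snd.comp continuous_snd))

lemma om_cont (hG : Geo (cc : GG k 2 → YY k 2 → PG k 2) y0) :
    Continuous (om : GG k 2 → YY k 2 × PG k 2) :=
  (zact_cont hG).comp (continuous_id.prodMk continuous_const)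

theorem om_open (hG : Geo (cc : GG k 2 → YY k 2 → PG k 2) y0) :
    IsOpenMap (om : GG k 2 → YY k 2 × PG k 2) := by
  haveI := sl_lc (k := k) (n := Fin 3)
  haveI := sl_sc (k := k) (n := Fin 3)
  haveI := pg_lc (k := k)
  haveI : T2Space (PG k 2) := H200.Coc.t2_pg
  letI := zma hG
  haveI : ContinuousSMul (GG k 2) (YY k 2 × PG k 2) := ⟨zact_cont hG⟩
  haveI : MulAction.IsPretransitive (GG k 2) (YY k 2 × PG k 2) := by
    constructor
    intro x y
    obtain ⟨a, rfl⟩ := om_surj hG x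
    obtain ⟨b, rfl⟩ := om_surj hG y
    refine ⟨b * a⁻¹, ?_⟩
    show zact cc (b * a⁻¹) (zact cc a (y0, 1)) = zact cc b (y0, 1)
    rw [← zact_mul hG, inv_mul_cancel_right]
  exact isOpenMap_smul_of_sigmaCompact ((y0, 1) : YY k 2 × PG k 2)

lemma Rm_of_om (hG : Geo (cc : GG k 2 → YY k 2 → PG k 2) y0) {g a a' : GG k 2}
    (h : zact cc g (om a) = om a') : Rm ((a'⁻¹).1 * g.1 * a.1) := by
  have h1 : zact cc (a'⁻¹ * g * a) ((y0, 1) : YY k 2 × PG k 2) = (y0, 1) := by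
    rw [zact_mul hG, zact_mul hG]
    have e : zact cc g (zact cc a ((y0, 1) : YY k 2 × PG k 2)) = om a' := h
    rw [e, om, ← zact_mul hG, inv_mul_cancel]
    unfold zact
    simp only
    rw [one_smul, H200.Coc.cc_one, one_mul]
  have h2 : (a'⁻¹ * g * a) • (y0 : YY k 2) = y0 := congrArg Prod.fst h1
  have h3 : cc (a'⁻¹ * g * a) (y0 : YY k 2) = 1 := by
    have := congrArg Prod.snd h1
    unfold zact at this
    simp only at this
    rwa [mul_one] at this
  exact Rm_iff.1 ⟨h2, h3⟩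

/-- [C-WAN] wandering neighbourhoods. -/
theorem wan (hG : Geo (cc : GG k 2 → YY k 2 → PG k 2) y0) {Γ : Type} [Group Γ]
    (q : Γ →* GG k 2) (hq : Emb q) : ∀ x ∈ H574.DD k, ∃ W ∈ 𝓝 x, ∀ (γ : Γ) y, y ∈ W →
      (zact cc (q γ) y.1, zact cc (q γ) y.2) ∈ W →
      (zact cc (q γ) y.1, zact cc (q γ) y.2) = y := by
  classical
  haveI := sl_lc (k := k) (n := Fin 3)
  haveI := sl_sc (k := k) (n := Fin 3)
  haveI := sl_t2 (k := k) (n := Fin 3)
  haveI := pg_lc (k := k)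
  haveI : T2Space (PG k 2) := H200.Coc.t2_pg
  rintro ⟨z, z'⟩ hzz
  have hne : z.1 ≠ z'.1 := hzz
  obtain ⟨O, O', hO, hO', hzO, hzO', hOO⟩ := t2_separation hne
  obtain ⟨N₁, hN₁, hN₁O, hN₁c⟩ := local_compact_nhds (x := z) (n := O ×ˢ Set.univ)
    ((hO.prod isOpen_univ).mem_nhds ⟨hzO, trivial⟩)
  obtain ⟨N₂, hN₂, hN₂O, hN₂c⟩ := local_compact_nhds (x := z') (n := O' ×ˢ Set.univ)
    ((hO'.prod isOpen_univ).mem_nhds ⟨hzO', trivial⟩)
  obtain ⟨L₁, hL₁, hNL₁⟩ := lift_compact (om_open hG) (om_surj hG) hN₁c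
  obtain ⟨L₂, hL₂, hNL₂⟩ := lift_compact (om_open hG) (om_surj hG) hN₂c
  have hK₁ : IsCompact (L₁ ∩ om ⁻¹' N₁) := hL₁.inter_right (hN₁c.isClosed.preimage (om_cont hG))
  have hK₂ : IsCompact (L₂ ∩ om ⁻¹' N₂) := hL₂.inter_right (hN₂c.isClosed.preimage (om_cont hG))
  obtain ⟨C, hC⟩ := bdd hK₁ hK₂ (by
    rintro a ⟨_, ha⟩ b ⟨_, hb⟩ hab
    have h1 : a • (y0 : YY k 2) ∈ O := (hN₁O ha).1
    have h2 : b • (y0 : YY k 2) ∈ O' := (hN₂O hb).1
    rw [hab] at h1
    exact Set.disjoint_left.1 hOO h1 h2)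
  have hlift₁ : ∀ w ∈ N₁, ∃ a ∈ L₁ ∩ om ⁻¹' N₁, om a = w := by
    intro w hw
    obtain ⟨a, ha, rfl⟩ := hNL₁ hw
    exact ⟨a, ⟨ha, hw⟩, rfl⟩
  have hlift₂ : ∀ w ∈ N₂, ∃ a ∈ L₂ ∩ om ⁻¹' N₂, om a = w := by
    intro w hw
    obtain ⟨a, ha, rfl⟩ := hNL₂ hw
    exact ⟨a, ⟨ha, hw⟩, rfl⟩
  -- finitely many elements
  have hfin : {γ : Γ | ∀ i j, ‖(q γ).1 i j‖ ≤ C}.Finite := by
    haveI : DiscreteTopology q.range := hq.lat.disc
    have h1 : {w : q.range | (w : GG k 2) ∈ {g : GG k 2 | ∀ i j, ‖g.1 i j‖ ≤ C}}.Finite :=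
      H515.finite_of_compact q.range (sl_bdd C)
    have h2 : {γ : Γ | ∀ i j, ‖(q γ).1 i j‖ ≤ C} = q.rangeRestrict ⁻¹'
        {w : q.range | (w : GG k 2) ∈ {g : GG k 2 | ∀ i j, ‖g.1 i j‖ ≤ C}} := rfl
    rw [h2]
    refine Set.Finite.preimage ?_ h1
    intro a _ b _ hab
    exact hq.inj (congrArg Subtype.val hab)
  have hmem : ∀ γ : Γ, ∀ y ∈ N₁ ×ˢ N₂, (zact cc (q γ) y.1, zact cc (q γ) y.2) ∈ N₁ ×ˢ N₂ →
      γ ∈ {γ : Γ | ∀ i j, ‖(q γ).1 i j‖ ≤ C} := by
    rintro γ ⟨w, w'⟩ ⟨hw, hw'⟩ ⟨hw2, hw2'⟩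
    obtain ⟨a, ha, rfl⟩ := hlift₁ w hw
    obtain ⟨b, hb, rfl⟩ := hlift₂ w' hw'
    obtain ⟨a', ha', haa⟩ := hlift₁ _ hw2
    obtain ⟨b', hb', hbb⟩ := hlift₂ _ hw2'
    exact hC (q γ) ⟨a, ha, a', ha', Rm_of_om hG haa.symm⟩
      ⟨b, hb, b', hb', Rm_of_om hG hbb.symm⟩
  -- the elements which move the point
  have hact : ∀ γ : Γ, Continuous fun y : (YY k 2 × PG k 2) × (YY k 2 × PG k 2) =>
      (zact cc (q γ) y.1, zact cc (q γ) y.2) := by
    intro γ
    exact ((zact_cont hG).comp (continuous_const.prodMk continuous_fst)).prodMk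
      ((zact_cont hG).comp (continuous_const.prodMk continuous_snd))
  have hmov : ∀ γ : Γ, ∃ V ∈ 𝓝 (z, z'), (zact cc (q γ) z, zact cc (q γ) z') ≠ (z, z') →
      ∀ y ∈ V, (zact cc (q γ) y.1, zact cc (q γ) y.2) ∉ V := by
    intro γ
    by_cases h : (zact cc (q γ) z, zact cc (q γ) z') ≠ (z, z')
    · obtain ⟨A, B, hA, hB, hxA, hxB, hAB⟩ := t2_separation h
      refine ⟨B ∩ (fun y : (YY k 2 × PG k 2) × (YY k 2 × PG k 2) =>
        (zact cc (q γ) y.1, zact cc (q γ) y.2)) ⁻¹' A, ?_, ?_⟩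
      · exact Filter.inter_mem (hB.mem_nhds hxB)
          ((hact γ).continuousAt.preimage_mem_nhds (hA.mem_nhds hxA))
      · rintro _ y ⟨_, hy⟩ ⟨hy', _⟩
        exact Set.disjoint_left.1 hAB hy hy'
    · exact ⟨Set.univ, Filter.univ_mem, fun h' => absurd h' h⟩
  choose V hV hV' using hmov
  refine ⟨(N₁ ×ˢ N₂) ∩ ⋂ γ ∈ hfin.toFinset, V γ, ?_, ?_⟩
  · refine Filter.inter_mem (prod_mem_nhds hN₁ hN₂) ?_
    exact (Filter.biInter_finset_mem _).2 fun γ _ => hV γ
  · rintro γ y ⟨hyN, hyV⟩ ⟨hyN', hyV'⟩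
    have hγ := hmem γ y hyN hyN'
    have hγF : γ ∈ hfin.toFinset := hfin.mem_toFinset.2 hγ
    have h1 : y ∈ V γ := Set.mem_iInter₂.1 hyV γ hγF
    have h2 : (zact cc (q γ) y.1, zact cc (q γ) y.2) ∈ V γ := Set.mem_iInter₂.1 hyV' γ hγF
    have h3 : (zact cc (q γ) z, zact cc (q γ) z') = (z, z') := by
      by_contra hcon
      exact hV' γ hcon y h1 h2
    obtain ⟨a, rfl⟩ := om_surj hG z
    obtain ⟨b, rfl⟩ := om_surj hG z'
    obtain ⟨s, hs⟩ := scal_of (Rm_of_om hG (congrArg Prod.fst h3))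
      (Rm_of_om hG (congrArg Prod.snd h3)) hne
    rw [zact_scal hs, zact_scal hs]

end orb

end Vale.Agent.P092.H684
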